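import Vale.Agent.P154H.Root

/-!
The evaluation at one leaf of the subdivision, and its soundness.
-/

namespace Vale.Agent.P154H.Tm

open Vale.Agent.P154

/-- Three symmetric functionals. -/
structure GV where
  g1 : TM
  g2 : TM
  g3 : TM

/-- The real functions. -/
noncomputable def gF1 (a b c : ℝ) : ℝ := a ^ 4 * b ^ 4 + a ^ 4 * c ^ 4 + b ^ 4 * c ^ 4
/-- The real functions. -/
noncomputable def gF2 (a b c : ℝ) : ℝ :=
  a ^ 4 * (b * c * (b ^ 2 + c ^ 2)) + b ^ 4 * (a * c * (a ^ 2 + c ^ 2)) + c ^ 4 * (a * b * (a ^ 2 + b ^ 2))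
/-- The real functions. -/
noncomputable def gF3 (a b c : ℝ) : ℝ := (a * b * c) ^ 2 * (a * b + a * c + b * c)

/-- Evaluation of the three functionals on Taylor models of the roots. -/
noncomputable def gvals (t1 t2 t3 : TM) : GV :=
  let p21 := mul t1 t1
  let p22 := mul t2 t2
  let p23 := mul t3 t3
  let p41 := mul p21 p21
  let p42 := mul p22 p22
  let p43 := mul p23 p23
  let q12 := mul t1 t2
  let q13 := mul t1 t3
  let q23 := mul t2 t3
  let e := mul q12 t3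
  let e2 := mul e e
  GV.mk (add (add (mul p41 p42) (mul p41 p43)) (mul p42 p43))
    (add (add (mul p41 (mul q23 (add p22 p23))) (mul p42 (mul q13 (add p21 p23))))
      (mul p43 (mul q12 (add p21 p22))))
    (mul e2 (add (add q12 q13) q23))

theorem gvals_enc {fa fb fc : ℝ → ℝ → ℝ} {t1 t2 t3 : TM} (h1 : Enc fa t1) (h2 : Enc fb t2) (h3 : Enc fc t3) :
    Enc (fun x y => gF1 (fa x y) (fb x y) (fc x y)) (gvals t1 t2 t3).g1 ∧
    Enc (fun x y => gF2 (fa x y) (fb x y) (fc x y)) (gvals t1 t2 t3).g2 ∧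
    Enc (fun x y => gF3 (fa x y) (fb x y) (fc x y)) (gvals t1 t2 t3).g3 := by
  have p21 := Enc.mul h1 h1
  have p22 := Enc.mul h2 h2
  have p23 := Enc.mul h3 h3
  have p41 := Enc.mul p21 p21
  have p42 := Enc.mul p22 p22
  have p43 := Enc.mul p23 p23
  have q12 := Enc.mul h1 h2
  have q13 := Enc.mul h1 h3
  have q23 := Enc.mul h2 h3
  have e := Enc.mul q12 h3
  have e2 := Enc.mul e e
  refine ⟨?_, ?_, ?_⟩
  · exact Enc.congr (Enc.add (Enc.add (Enc.mul p41 p42) (Enc.mul p41 p43)) (Enc.mul p42 p43))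
      (fun x y => by unfold gF1; ring)
  · exact Enc.congr (Enc.add (Enc.add (Enc.mul p41 (Enc.mul q23 (Enc.add p22 p23)))
      (Enc.mul p42 (Enc.mul q13 (Enc.add p21 p23)))) (Enc.mul p43 (Enc.mul q12 (Enc.add p21 p22))))
      (fun x y => by unfold gF2; ring)
  · exact Enc.congr (Enc.mul e2 (Enc.add (Enc.add q12 q13) q23))
      (fun x y => by unfold gF3; ring)

/-- A point of a box of the grid of unit `2^-40` from its normalised coordinate. -/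
noncomputable def fs (x0 h : ℕ) (a : ℝ) : ℝ := ((x0 : ℝ) + h + h * a) / 1099511627776

/-- The first coordinate as a Taylor model. -/
noncomputable def varX (x0 h : ℕ) : TM :=
  TM.mk (Nat.mul (Nat.add x0 h) 65536) 0 (Nat.mul h 65536) 0 0 0 0 0 0 0 0 0 0 0 0 0 0 0 0 0 0 0 0 0 0 0 0 0 0 0 0

/-- The second coordinate as a Taylor model. -/
noncomputable def varY (x0 h : ℕ) : TM :=
  TM.mk (Nat.mul (Nat.add x0 h) 65536) 0 0 0 (Nat.mul h 65536) 0 0 0 0 0 0 0 0 0 0 0 0 0 0 0 0 0 0 0 0 0 0 0 0 0 0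

lemma varX_enc (x0 h : ℕ) : Enc (fun a _ => fs x0 h a) (varX x0 h) := by
  intro a b _ _
  have e1 : (S : ℝ) = 72057594037927936 := by norm_num [S]
  have e2 : ev (varX x0 h) a b = ((x0 : ℝ) + h) * 65536 + h * 65536 * a := by
    simp only [varX, ev, nadd, nmul]; push_cast; ring
  have e3 : (S : ℝ) * fs x0 h a - (((x0 : ℝ) + h) * 65536 + h * 65536 * a) = 0 := by
    rw [e1]; unfold fs; ring
  rw [e2, e3]
  simp [varX]

lemma varY_enc (x0 h : ℕ) : Enc (fun _ b => fs x0 h b) (varY x0 h) := by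
  intro a b _ _
  have e1 : (S : ℝ) = 72057594037927936 := by norm_num [S]
  have e2 : ev (varY x0 h) a b = ((x0 : ℝ) + h) * 65536 + h * 65536 * b := by
    simp only [varY, ev, nadd, nmul]; push_cast; ring
  have e3 : (S : ℝ) * fs x0 h b - (((x0 : ℝ) + h) * 65536 + h * 65536 * b) = 0 := by
    rw [e1]; unfold fs; ring
  rw [e2, e3]
  simp [varY]

/-- The eighth power. -/
noncomputable def pow8 (s : TM) : TM :=
  let s2 := mul s s
  let s4 := mul s2 s2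
  mul s4 s4

lemma pow8_enc {f : ℝ → ℝ → ℝ} {s : TM} (h : Enc f s) : Enc (fun a b => f a b ^ 8) (pow8 s) := by
  have h2 := Enc.mul h h
  have h4 := Enc.mul h2 h2
  exact Enc.congr (Enc.mul h4 h4) (fun a b => by ring)

/-- `3 S`. -/
def S3 : ℕ := 216172782113783808

lemma enc_three : Enc (fun _ _ => (3 : ℝ)) (K S3 0 0) := by
  apply Enc.const
  norm_num [S, S3]

lemma enc_zero : Enc (fun _ _ => (0 : ℝ)) (K 0 0 0) := by
  apply Enc.const
  simp

/-- The square of three minus a Taylor model. -/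
noncomputable def x9Of (G : TM) : TM :=
  let X3 := sub (K S3 0 0) G
  mul X3 X3

lemma x9Of_enc {h : ℝ → ℝ → ℝ} {G : TM} (hG : Enc h G) : Enc (fun a b => (3 - h a b) ^ 2) (x9Of G) := by
  have hX3 := Enc.sub enc_three hG
  exact Enc.congr (Enc.mul hX3 hX3) (fun a b => by ring)

/-- Everything evaluated at a leaf. -/
structure LV where
  g1 : TM
  g2 : TM
  g3 : TM
  h1 : TM
  h2 : TM
  h3 : TM
  a3 : TM
  a9 : TM
  x9 : TM
  ok : Bool

/-- The evaluation at a leaf; `lp - ln` encloses the eigenvalue, `y1 .. y4` are hints for the roots. -/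
noncomputable def leafV (lp ln x0 h1 t0 h2 y1 y2 y3 y4 : ℕ) : LV :=
  let s := varX x0 h1
  let r := varY t0 h2
  let s8 := pow8 s
  let r8 := pow8 r
  let v2 := sub s8 (K S 0 0)
  let v3 := sub r8 (K S 0 0)
  let v1 := sub (sub (K 0 0 0) v2) v3
  let W1 := rootW (sub (sub (K S3 0 0) s8) r8) y1
  let W2 := rootW (add (K S 0 0) (mulC v1 lp ln 1)) y2
  let W3 := rootW (add (K S 0 0) (mulC v2 lp ln 1)) y3
  let W4 := rootW (add (K S 0 0) (mulC v3 lp ln 1)) y4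
  let gv := gvals (rootF W1 y1) s r
  let hv := gvals (rootF W2 y2) (rootF W3 y3) (rootF W4 y4)
  let a3 := add (add (mul v2 v2) (mul v2 v3)) (mul v3 v3)
  LV.mk gv.g1 gv.g2 gv.g3 hv.g1 hv.g2 hv.g3 a3 (mul a3 a3) (x9Of hv.g3)
    (and (rootOk W1 y1) (and (rootOk W2 y2) (and (rootOk W3 y3) (rootOk W4 y4))))

/-- The basis at a point `(s, r)`. -/
noncomputable def t1F (s r : ℝ) : ℝ := r8 (3 - s ^ 8 - r ^ 8)
/-- The message coordinate. -/
noncomputable def v1F (s r : ℝ) : ℝ := 2 - s ^ 8 - r ^ 8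
/-- The message coordinate. -/
noncomputable def v2F (s : ℝ) : ℝ := s ^ 8 - 1
/-- `3 A`. -/
noncomputable def a3F (s r : ℝ) : ℝ := v2F s ^ 2 + v2F s * v2F r + v2F r ^ 2
/-- The root after the edge. -/
noncomputable def tpF (lam u : ℝ) : ℝ := r8 (1 + lam * u)

/-- One row of integer coefficients of a linear form in the basis. -/
structure Row where
  k1p : ℕ
  k1n : ℕ
  k2p : ℕ
  k2n : ℕ
  k3p : ℕ
  k3n : ℕ
  k4p : ℕ
  k4n : ℕ
  k5p : ℕ
  k5n : ℕ
  k6p : ℕ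
  k6n : ℕ
  k7p : ℕ
  k7n : ℕ
  k8p : ℕ
  k8n : ℕ
  k9p : ℕ
  k9n : ℕ

/-- The value of a linear form in the basis. -/
noncomputable def evalRow (lam : ℝ) (R : Row) (s r : ℝ) : ℝ :=
  ((R.k1p : ℝ) - R.k1n) * gF1 (t1F s r) s r + ((R.k2p : ℝ) - R.k2n) * gF2 (t1F s r) s r
    + ((R.k3p : ℝ) - R.k3n) * gF3 (t1F s r) s r
    + ((R.k4p : ℝ) - R.k4n) * gF1 (tpF lam (v1F s r)) (tpF lam (v2F s)) (tpF lam (v2F r))
    + ((R.k5p : ℝ) - R.k5n) * gF2 (tpF lam (v1F s r)) (tpF lam (v2F s)) (tpF lam (v2F r))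
    + ((R.k6p : ℝ) - R.k6n) * gF3 (tpF lam (v1F s r)) (tpF lam (v2F s)) (tpF lam (v2F r))
    + ((R.k7p : ℝ) - R.k7n) * a3F s r ^ 2
    + ((R.k8p : ℝ) - R.k8n) * (3 - gF3 (tpF lam (v1F s r)) (tpF lam (v2F s)) (tpF lam (v2F r))) ^ 2
    + ((R.k9p : ℝ) - R.k9n)

/-- The Taylor model of a linear form. -/
noncomputable def rowT (R : Row) (lv : LV) : TM :=
  addMul (addMul (addMul (addMul (addMul (addMul (addMul (addMul (addMul (K 0 0 0)
    R.k1p R.k1n lv.g1) R.k2p R.k2n lv.g2) R.k3p R.k3n lv.g3) R.k4p R.k4n lv.h1)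
    R.k5p R.k5n lv.h2) R.k6p R.k6n lv.h3) R.k7p R.k7n lv.a9) R.k8p R.k8n lv.x9) R.k9p R.k9n (K S 0 0)

/-- The test of one linear form at a leaf. -/
noncomputable def rowOK (R : Row) (lv : LV) : Bool := nonnegT (nz (rowT R lv))

/-- The test of a list of linear forms at a leaf. -/
noncomputable def allRows (rows : List Row) (lv : LV) : Bool :=
  List.rec (motive := fun _ => Bool) true (fun R _ ih => and (rowOK R lv) ih) rows

/-- The enclosures at a leaf. -/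
structure LVEnc (lam : ℝ) (x0 w1 t0 w2 : ℕ) (lv : LV) : Prop where
  g1 : Enc (fun a b => gF1 (t1F (fs x0 w1 a) (fs t0 w2 b)) (fs x0 w1 a) (fs t0 w2 b)) lv.g1
  g2 : Enc (fun a b => gF2 (t1F (fs x0 w1 a) (fs t0 w2 b)) (fs x0 w1 a) (fs t0 w2 b)) lv.g2
  g3 : Enc (fun a b => gF3 (t1F (fs x0 w1 a) (fs t0 w2 b)) (fs x0 w1 a) (fs t0 w2 b)) lv.g3
  h1 : Enc (fun a b => gF1 (tpF lam (v1F (fs x0 w1 a) (fs t0 w2 b))) (tpF lam (v2F (fs x0 w1 a)))
    (tpF lam (v2F (fs t0 w2 b)))) lv.h1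
  h2 : Enc (fun a b => gF2 (tpF lam (v1F (fs x0 w1 a) (fs t0 w2 b))) (tpF lam (v2F (fs x0 w1 a)))
    (tpF lam (v2F (fs t0 w2 b)))) lv.h2
  h3 : Enc (fun a b => gF3 (tpF lam (v1F (fs x0 w1 a) (fs t0 w2 b))) (tpF lam (v2F (fs x0 w1 a)))
    (tpF lam (v2F (fs t0 w2 b)))) lv.h3
  a3 : Enc (fun a b => a3F (fs x0 w1 a) (fs t0 w2 b)) lv.a3
  a9 : Enc (fun a b => a3F (fs x0 w1 a) (fs t0 w2 b) ^ 2) lv.a9
  x9 : Enc (fun a b => (3 - gF3 (tpF lam (v1F (fs x0 w1 a) (fs t0 w2 b))) (tpF lam (v2F (fs x0 w1 a)))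
    (tpF lam (v2F (fs t0 w2 b)))) ^ 2) lv.x9

theorem leafV_enc {lam : ℝ} {lp ln x0 h1 t0 h2 y1 y2 y3 y4 : ℕ}
    (hlam : |(S : ℝ) * lam - ((lp : ℝ) - ln)| ≤ ((1 : ℕ) : ℝ))
    (hok : (leafV lp ln x0 h1 t0 h2 y1 y2 y3 y4).ok = true) :
    LVEnc lam x0 h1 t0 h2 (leafV lp ln x0 h1 t0 h2 y1 y2 y3 y4) := by
  have hs := varX_enc x0 h1
  have hr := varY_enc t0 h2
  have hs8 := pow8_enc hs
  have hr8 := pow8_enc hr
  have hone := enc_one
  have hv2 : Enc (fun a _ => v2F (fs x0 h1 a)) (sub (pow8 (varX x0 h1)) (K S 0 0)) := Enc.sub hs8 hone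
  have hv3 : Enc (fun _ b => v2F (fs t0 h2 b)) (sub (pow8 (varY t0 h2)) (K S 0 0)) := Enc.sub hr8 hone
  have hv1 : Enc (fun a b => v1F (fs x0 h1 a) (fs t0 h2 b))
      (sub (sub (K 0 0 0) (sub (pow8 (varX x0 h1)) (K S 0 0))) (sub (pow8 (varY t0 h2)) (K S 0 0))) :=
    Enc.congr (Enc.sub (Enc.sub enc_zero hv2) hv3) (fun a b => by unfold v1F v2F; ring)
  have hx1 : Enc (fun a b => 3 - fs x0 h1 a ^ 8 - fs t0 h2 b ^ 8)
      (sub (sub (K S3 0 0) (pow8 (varX x0 h1))) (pow8 (varY t0 h2))) :=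
    Enc.sub (Enc.sub enc_three hs8) hr8
  have hp1 := Enc.add hone (Enc.mulC hv1 hlam)
  have hp2 := Enc.add hone (Enc.mulC hv2 hlam)
  have hp3 := Enc.add hone (Enc.mulC hv3 hlam)
  have hok' : (and (rootOk (rootW (sub (sub (K S3 0 0) (pow8 (varX x0 h1))) (pow8 (varY t0 h2))) y1) y1)
      (and (rootOk (rootW (add (K S 0 0) (mulC (sub (sub (K 0 0 0) (sub (pow8 (varX x0 h1)) (K S 0 0))) (sub (pow8 (varY t0 h2)) (K S 0 0))) lp ln 1)) y2) y2)
      (and (rootOk (rootW (add (K S 0 0) (mulC (sub (pow8 (varX x0 h1)) (K S 0 0)) lp ln 1)) y3) y3)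
        (rootOk (rootW (add (K S 0 0) (mulC (sub (pow8 (varY t0 h2)) (K S 0 0)) lp ln 1)) y4) y4)))) = true := hok
  simp only [Bool.and_eq_true] at hok'
  obtain ⟨o1, o2, o3, o4⟩ := hok'
  have ht1 := Enc.root hx1 y1 o1
  have ht2 := Enc.root hp1 y2 o2
  have ht3 := Enc.root hp2 y3 o3
  have ht4 := Enc.root hp3 y4 o4
  obtain ⟨g1, g2, g3⟩ := gvals_enc ht1 hs hr
  obtain ⟨p1, p2, p3⟩ := gvals_enc ht2 ht3 ht4
  have ha3 : Enc (fun a b => a3F (fs x0 h1 a) (fs t0 h2 b)) _ :=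
    Enc.congr (Enc.add (Enc.add (Enc.mul hv2 hv2) (Enc.mul hv2 hv3)) (Enc.mul hv3 hv3))
      (fun a b => by unfold a3F; ring)
  refine ⟨g1, g2, g3, p1, p2, p3, ha3, ?_, x9Of_enc p3⟩
  exact Enc.congr (Enc.mul ha3 ha3) (fun a b => by ring)

theorem rowT_enc {lam : ℝ} {x0 h1 t0 h2 : ℕ} {lv : LV} (h : LVEnc lam x0 h1 t0 h2 lv) (R : Row) :
    Enc (fun a b => evalRow lam R (fs x0 h1 a) (fs t0 h2 b)) (rowT R lv) := by
  have e1 := Enc.addMul R.k1p R.k1n enc_zero h.g1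
  have e2 := Enc.addMul R.k2p R.k2n e1 h.g2
  have e3 := Enc.addMul R.k3p R.k3n e2 h.g3
  have e4 := Enc.addMul R.k4p R.k4n e3 h.h1
  have e5 := Enc.addMul R.k5p R.k5n e4 h.h2
  have e6 := Enc.addMul R.k6p R.k6n e5 h.h3
  have e7 := Enc.addMul R.k7p R.k7n e6 h.a9
  have e8 := Enc.addMul R.k8p R.k8n e7 h.x9
  have e9 := Enc.addMul R.k9p R.k9n e8 enc_one
  exact Enc.congr e9 (fun a b => by unfold evalRow; ring)

theorem allRows_spec {lam : ℝ} {x0 h1 t0 h2 : ℕ} {lv : LV} (h : LVEnc lam x0 h1 t0 h2 lv)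
    (rows : List Row) (hr : allRows rows lv = true) {a b : ℝ} (ha : |a| ≤ 1) (hb : |b| ≤ 1) :
    ∀ R ∈ rows, 0 ≤ evalRow lam R (fs x0 h1 a) (fs t0 h2 b) := by
  induction rows with
  | nil => simp
  | cons R rs ih =>
    have hr' : and (rowOK R lv) (allRows rs lv) = true := hr
    simp only [Bool.and_eq_true] at hr'
    intro Q hQ
    rcases List.mem_cons.1 hQ with rfl | hQ
    · exact nonnegT_spec (Enc.nz (rowT_enc h Q)) hr'.1 ha hb
    · exact ih hr'.2 Q hQ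

end Vale.Agent.P154H.Tm
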