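import Vale.Agent.P154H.D.F5
import Vale.Agent.P154H.D.F6
import Vale.Agent.P154H.D.F7
import Vale.Agent.P154H.D.F8
import Vale.Agent.P154H.D.F9
import Vale.Agent.P154H.D.F10
import Vale.Agent.P154H.D.F11
import Vale.Agent.P154H.D.F12
import Vale.Agent.P154H.D.F13
import Vale.Agent.P154H.D.F14
import Vale.Agent.P154H.D.F15
import Vale.Agent.P154H.D.F16
import Vale.Agent.P154H.D.F17
import Vale.Agent.P154H.D.F18
import Vale.Agent.P154H.D.F19
import Vale.Agent.P154H.D.F20
import Vale.Agent.P154H.D.F21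
import Vale.Agent.P154H.D.F22
import Vale.Agent.P154H.D.F23
import Vale.Agent.P154H.D.F24
import Vale.Agent.P154H.D.F25
import Vale.Agent.P154H.D.F26
import Vale.Agent.P154H.D.F27
import Vale.Agent.P154H.D.F28
import Vale.Agent.P154H.D.F29
import Vale.Agent.P154H.D.F30
import Vale.Agent.P154H.D.F31
import Vale.Agent.P154H.D.F32
import Vale.Agent.P154H.D.F33
import Vale.Agent.P154H.D.F34
import Vale.Agent.P154H.D.F35
import Vale.Agent.P154H.D.F36
import Vale.Agent.P154H.D.F37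
import Vale.Agent.P154H.D.F38
import Vale.Agent.P154H.D.F39
import Vale.Agent.P154H.D.F40
import Vale.Agent.P154H.D.F41
import Vale.Agent.P154.Final

open Filter Topology

/-!
Nonreconstruction for the three-state Potts channel with negative eigenvalue on the `d`-ary tree,
for every `d ≥ 5`, at and below the Kesten-Stigum bound.
-/

namespace Vale.Agent.P154H

open Vale.Agent.P154

/-- Data processing from the Kesten-Stigum point. -/
lemma of_ks {d : ℕ} (x : ℝ) (hx : x = (d : ℝ)) (hd : 4 ≤ x)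
    (h : Tendsto (reconError 3 d (-(1 / Real.sqrt x))) atTop (𝓝 0))
    (lam : ℝ) (h0 : lam ≤ 0) (hdl : (d : ℝ) * lam ^ 2 ≤ 1) :
    Tendsto (reconError 3 d lam) atTop (𝓝 0) := by
  subst hx
  have hx0 : (0 : ℝ) < (d : ℝ) := by linarith
  have hs : 0 < Real.sqrt (d : ℝ) := Real.sqrt_pos.2 hx0
  have hs2 : Real.sqrt (d : ℝ) ^ 2 = (d : ℝ) := Real.sq_sqrt hx0.le
  have hs3 : 2 ≤ Real.sqrt (d : ℝ) := by
    have : (2 : ℝ) ^ 2 ≤ Real.sqrt (d : ℝ) ^ 2 := by rw [hs2]; linarith
    exact le_of_sq_le_sq this hs.le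
  have hinv : 1 / Real.sqrt (d : ℝ) ≤ 1 / 2 := by
    apply one_div_le_one_div_of_le (by norm_num) hs3
  have hinv0 : 0 < 1 / Real.sqrt (d : ℝ) := by positivity
  have key := nonrecon_scale (d := d) (lam := -(1 / Real.sqrt (d : ℝ))) (by linarith) (by linarith)
    (-lam * Real.sqrt (d : ℝ)) (mul_nonneg (by linarith) hs.le) ?_ h
  · have e : -lam * Real.sqrt (d : ℝ) * -(1 / Real.sqrt (d : ℝ)) = lam := by
      field_simp
    rwa [e] at key
  · have h1 : (-lam * Real.sqrt (d : ℝ)) ^ 2 ≤ 1 := by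
      rw [mul_pow, hs2, neg_sq]; linarith
    have h2 : 0 ≤ -lam * Real.sqrt (d : ℝ) := mul_nonneg (by linarith) hs.le
    nlinarith

/-- The whole range: `d ≥ 5` and `λ ≤ 0` with `d λ² ≤ 1`. -/
theorem regular_neg_five (d : ℕ) (hd : 5 ≤ d) (lam : ℝ) (h0 : lam ≤ 0)
    (hdl : (d : ℝ) * lam ^ 2 ≤ 1) : Tendsto (reconError 3 d lam) atTop (𝓝 0) := by
  by_cases h42 : 42 ≤ d
  · exact regular_neg d h42 lam h0 hdl
  have hd' : d < 42 := by omega
  interval_cases d
  · exact of_ks (d := 5) (5 : ℝ) (by norm_num) (by norm_num) Tm.D5.main lam h0 hdl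
  · exact of_ks (d := 6) (6 : ℝ) (by norm_num) (by norm_num) Tm.D6.main lam h0 hdl
  · exact of_ks (d := 7) (7 : ℝ) (by norm_num) (by norm_num) Tm.D7.main lam h0 hdl
  · exact of_ks (d := 8) (8 : ℝ) (by norm_num) (by norm_num) Tm.D8.main lam h0 hdl
  · exact of_ks (d := 9) (9 : ℝ) (by norm_num) (by norm_num) Tm.D9.main lam h0 hdl
  · exact of_ks (d := 10) (10 : ℝ) (by norm_num) (by norm_num) Tm.D10.main lam h0 hdl
  · exact of_ks (d := 11) (11 : ℝ) (by norm_num) (by norm_num) Tm.D11.main lam h0 hdl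
  · exact of_ks (d := 12) (12 : ℝ) (by norm_num) (by norm_num) Tm.D12.main lam h0 hdl
  · exact of_ks (d := 13) (13 : ℝ) (by norm_num) (by norm_num) Tm.D13.main lam h0 hdl
  · exact of_ks (d := 14) (14 : ℝ) (by norm_num) (by norm_num) Tm.D14.main lam h0 hdl
  · exact of_ks (d := 15) (15 : ℝ) (by norm_num) (by norm_num) Tm.D15.main lam h0 hdl
  · exact of_ks (d := 16) (16 : ℝ) (by norm_num) (by norm_num) Tm.D16.main lam h0 hdl
  · exact of_ks (d := 17) (17 : ℝ) (by norm_num) (by norm_num) Tm.D17.main lam h0 hdl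
  · exact of_ks (d := 18) (18 : ℝ) (by norm_num) (by norm_num) Tm.D18.main lam h0 hdl
  · exact of_ks (d := 19) (19 : ℝ) (by norm_num) (by norm_num) Tm.D19.main lam h0 hdl
  · exact of_ks (d := 20) (20 : ℝ) (by norm_num) (by norm_num) Tm.D20.main lam h0 hdl
  · exact of_ks (d := 21) (21 : ℝ) (by norm_num) (by norm_num) Tm.D21.main lam h0 hdl
  · exact of_ks (d := 22) (22 : ℝ) (by norm_num) (by norm_num) Tm.D22.main lam h0 hdl
  · exact of_ks (d := 23) (23 : ℝ) (by norm_num) (by norm_num) Tm.D23.main lam h0 hdl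
  · exact of_ks (d := 24) (24 : ℝ) (by norm_num) (by norm_num) Tm.D24.main lam h0 hdl
  · exact of_ks (d := 25) (25 : ℝ) (by norm_num) (by norm_num) Tm.D25.main lam h0 hdl
  · exact of_ks (d := 26) (26 : ℝ) (by norm_num) (by norm_num) Tm.D26.main lam h0 hdl
  · exact of_ks (d := 27) (27 : ℝ) (by norm_num) (by norm_num) Tm.D27.main lam h0 hdl
  · exact of_ks (d := 28) (28 : ℝ) (by norm_num) (by norm_num) Tm.D28.main lam h0 hdl
  · exact of_ks (d := 29) (29 : ℝ) (by norm_num) (by norm_num) Tm.D29.main lam h0 hdl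
  · exact of_ks (d := 30) (30 : ℝ) (by norm_num) (by norm_num) Tm.D30.main lam h0 hdl
  · exact of_ks (d := 31) (31 : ℝ) (by norm_num) (by norm_num) Tm.D31.main lam h0 hdl
  · exact of_ks (d := 32) (32 : ℝ) (by norm_num) (by norm_num) Tm.D32.main lam h0 hdl
  · exact of_ks (d := 33) (33 : ℝ) (by norm_num) (by norm_num) Tm.D33.main lam h0 hdl
  · exact of_ks (d := 34) (34 : ℝ) (by norm_num) (by norm_num) Tm.D34.main lam h0 hdl
  · exact of_ks (d := 35) (35 : ℝ) (by norm_num) (by norm_num) Tm.D35.main lam h0 hdl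
  · exact of_ks (d := 36) (36 : ℝ) (by norm_num) (by norm_num) Tm.D36.main lam h0 hdl
  · exact of_ks (d := 37) (37 : ℝ) (by norm_num) (by norm_num) Tm.D37.main lam h0 hdl
  · exact of_ks (d := 38) (38 : ℝ) (by norm_num) (by norm_num) Tm.D38.main lam h0 hdl
  · exact of_ks (d := 39) (39 : ℝ) (by norm_num) (by norm_num) Tm.D39.main lam h0 hdl
  · exact of_ks (d := 40) (40 : ℝ) (by norm_num) (by norm_num) Tm.D40.main lam h0 hdl
  · exact of_ks (d := 41) (41 : ℝ) (by norm_num) (by norm_num) Tm.D41.main lam h0 hdl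

end Vale.Agent.P154H
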