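import Vale.Agent.P154H.D.FS2
import Vale.Agent.P154H.D.FS3
import Vale.Agent.P154H.D.FS4
import Vale.Agent.P154H.NegAll

open Filter Topology

/-!
Nonreconstruction for the three-state Potts channel on the `d`-ary tree for every `d ≥ 2` and
every negative eigenvalue with `|λ| ≤ 49/100`.
-/

namespace Vale.Agent.P154H

open Vale.Agent.P154

/-- Data processing from the eigenvalue `-49/100`. -/
lemma of_sub {d : ℕ} (h : Tendsto (reconError 3 d (-49 / 100 : ℝ)) atTop (𝓝 0))
    (lam : ℝ) (h0 : -(49 / 100) ≤ lam) (h1 : lam ≤ 0) :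
    Tendsto (reconError 3 d lam) atTop (𝓝 0) := by
  have key := nonrecon_scale (d := d) (lam := (-49 / 100 : ℝ)) (by norm_num) (by norm_num)
    (lam * (-100 / 49)) (by nlinarith) (by nlinarith) h
  have e : lam * (-100 / 49) * (-49 / 100 : ℝ) = lam := by ring
  rwa [e] at key

/-- Every `d ≥ 2` and `-49/100 ≤ λ ≤ 0`. -/
theorem regular_neg_sub (d : ℕ) (hd : 2 ≤ d) (lam : ℝ) (h0 : -(49 / 100) ≤ lam) (h1 : lam ≤ 0)
    (hdl : (d : ℝ) * lam ^ 2 ≤ 1) : Tendsto (reconError 3 d lam) atTop (𝓝 0) := by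
  by_cases h5 : 5 ≤ d
  · exact regular_neg_five d h5 lam h1 hdl
  have hd' : d < 5 := by omega
  interval_cases d
  · exact of_sub Tm.S2.main lam h0 h1
  · exact of_sub Tm.S3.main lam h0 h1
  · exact of_sub Tm.S4.main lam h0 h1

end Vale.Agent.P154H
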