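import Vale.Agent.P154H.D.FP2
import Vale.Agent.P154H.D.FP3
import Vale.Agent.P154H.D.FP4
import Vale.Agent.P154H.D.FP5
import Vale.Agent.P154H.D.FP6
import Vale.Agent.P154H.D.FP7
import Vale.Agent.P154.Final

open Filter Topology

/-!
Nonreconstruction for the three-state Potts channel with positive eigenvalue on the `d`-ary tree,
for every `d ≥ 2`, at and below the Kesten-Stigum bound.
-/

namespace Vale.Agent.P154H

open Vale.Agent.P154

/-- Data processing from the Kesten-Stigum point. -/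
lemma of_ks_pos {d : ℕ} (x : ℝ) (hx : x = (d : ℝ)) (hd : 1 ≤ x)
    (h : Tendsto (reconError 3 d (1 / Real.sqrt x)) atTop (𝓝 0))
    (lam : ℝ) (h0 : 0 ≤ lam) (hdl : (d : ℝ) * lam ^ 2 ≤ 1) :
    Tendsto (reconError 3 d lam) atTop (𝓝 0) := by
  subst hx
  have hx0 : (0 : ℝ) < (d : ℝ) := by linarith
  have hs : 0 < Real.sqrt (d : ℝ) := Real.sqrt_pos.2 hx0
  have hs2 : Real.sqrt (d : ℝ) ^ 2 = (d : ℝ) := Real.sq_sqrt hx0.le
  have hs3 : 1 ≤ Real.sqrt (d : ℝ) := by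
    have : (1 : ℝ) ^ 2 ≤ Real.sqrt (d : ℝ) ^ 2 := by rw [hs2]; linarith
    exact le_of_sq_le_sq this hs.le
  have hinv : 1 / Real.sqrt (d : ℝ) ≤ 1 := by
    rw [div_le_one hs]; exact hs3
  have hinv0 : 0 < 1 / Real.sqrt (d : ℝ) := by positivity
  have key := nonrecon_scale (d := d) (lam := 1 / Real.sqrt (d : ℝ)) (by linarith) hinv
    (lam * Real.sqrt (d : ℝ)) (mul_nonneg h0 hs.le) ?_ h
  · have e : lam * Real.sqrt (d : ℝ) * (1 / Real.sqrt (d : ℝ)) = lam := by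
      field_simp
    rwa [e] at key
  · have h1 : (lam * Real.sqrt (d : ℝ)) ^ 2 ≤ 1 := by
      rw [mul_pow, hs2]; linarith
    have h2 : 0 ≤ lam * Real.sqrt (d : ℝ) := mul_nonneg h0 hs.le
    nlinarith

/-- The whole range: `d ≥ 2` and `λ ≥ 0` with `d λ² ≤ 1`. -/
theorem regular_pos_two (d : ℕ) (hd : 2 ≤ d) (lam : ℝ) (h0 : 0 ≤ lam)
    (hdl : (d : ℝ) * lam ^ 2 ≤ 1) : Tendsto (reconError 3 d lam) atTop (𝓝 0) := by
  by_cases h8 : 8 ≤ d
  · have hd' : (15 / 2 : ℝ) ≤ d := by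
      have : (8 : ℝ) ≤ d := by exact_mod_cast h8
      linarith
    have hl := pos_range hd' h0 hdl
    exact regular_of_stat SP.hc1 SP.hc4 SP.hc lam (by linarith) (by linarith) (by nlinarith)
      (fun z v hz hz1 hv hv1 => SP.stat lam h0 hl z v hz hz1 hv hv1) d (by omega) hdl
  have hd' : d < 8 := by omega
  interval_cases d
  · exact of_ks_pos (d := 2) (2 : ℝ) (by norm_num) (by norm_num) Tm.P2.main lam h0 hdl
  · exact of_ks_pos (d := 3) (3 : ℝ) (by norm_num) (by norm_num) Tm.P3.main lam h0 hdl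
  · exact of_ks_pos (d := 4) (4 : ℝ) (by norm_num) (by norm_num) Tm.P4.main lam h0 hdl
  · exact of_ks_pos (d := 5) (5 : ℝ) (by norm_num) (by norm_num) Tm.P5.main lam h0 hdl
  · exact of_ks_pos (d := 6) (6 : ℝ) (by norm_num) (by norm_num) Tm.P6.main lam h0 hdl
  · exact of_ks_pos (d := 7) (7 : ℝ) (by norm_num) (by norm_num) Tm.P7.main lam h0 hdl

end Vale.Agent.P154H
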