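import Vale.Agent.P154H.Defs

/-!
Fixed point Taylor models of total degree four in two variables on the square `[-1,1]²`, with an
evaluator for the kernel. Coefficients are differences of natural numbers.
-/

open Finset BigOperators

namespace Vale.Agent.P154H.Tm

open Vale.Agent.P154

/-- The fixed point scale `2^56`. -/
def S : ℕ := 72057594037927936

lemma S_pos : (0 : ℝ) < (S : ℝ) := by norm_num [S]

/-- A polynomial of degree at most four, and an error. -/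
structure TM where
  p00 : ℕ
  n00 : ℕ
  p10 : ℕ
  n10 : ℕ
  p01 : ℕ
  n01 : ℕ
  p20 : ℕ
  n20 : ℕ
  p11 : ℕ
  n11 : ℕ
  p02 : ℕ
  n02 : ℕ
  p30 : ℕ
  n30 : ℕ
  p21 : ℕ
  n21 : ℕ
  p12 : ℕ
  n12 : ℕ
  p03 : ℕ
  n03 : ℕ
  p40 : ℕ
  n40 : ℕ
  p31 : ℕ
  n31 : ℕ
  p22 : ℕ
  n22 : ℕ
  p13 : ℕ
  n13 : ℕ
  p04 : ℕ
  n04 : ℕ
  e : ℕ

/-- Value of the polynomial. -/
noncomputable def ev (t : TM) (x y : ℝ) : ℝ :=
  ((t.p00 : ℝ) - t.n00) + ((t.p10 : ℝ) - t.n10) * x + ((t.p01 : ℝ) - t.n01) * y + ((t.p20 : ℝ) - t.n20) * x^2 + ((t.p11 : ℝ) - t.n11) * x * y + ((t.p02 : ℝ) - t.n02) * y^2 + ((t.p30 : ℝ) - t.n30) * x^3 + ((t.p21 : ℝ) - t.n21) * x^2 * y + ((t.p12 : ℝ) - t.n12) * x * y^2 + ((t.p03 : ℝ) - t.n03) * y^3 + ((t.p40 : ℝ) - t.n40) * x^4 + ((t.p31 : ℝ) - t.n31) * x^3 * y + ((t.p22 : ℝ) - t.n22) * x^2 * y^2 + ((t.p13 : ℝ) - t.n13) * x * y^3 + ((t.p04 : ℝ)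 - t.n04) * y^4

/-- Enclosure: `|S f - P| ≤ e` on the square. -/
def Enc (f : ℝ → ℝ → ℝ) (t : TM) : Prop :=
  ∀ x y : ℝ, |x| ≤ 1 → |y| ≤ 1 → |(S : ℝ) * f x y - ev t x y| ≤ t.e

lemma nadd (a b : ℕ) : Nat.add a b = a + b := rfl
lemma nmul (a b : ℕ) : Nat.mul a b = a * b := rfl
lemma nsub (a b : ℕ) : Nat.sub a b = a - b := rfl
lemma ndiv (a b : ℕ) : Nat.div a b = a / b := rfl

lemma nat_sub_val (a b : ℕ) : (((Nat.sub a b : ℕ) : ℝ) - ((Nat.sub b a : ℕ) : ℝ)) = (a : ℝ) - b := by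
  rcases le_total a b with h | h
  · have e1 : Nat.sub a b = 0 := Nat.sub_eq_zero_of_le h
    have e2 : ((Nat.sub b a : ℕ) : ℝ) = (b : ℝ) - a := by
      rw [nsub]; exact Nat.cast_sub h
    rw [e1, e2]; simp
  · have e1 : Nat.sub b a = 0 := Nat.sub_eq_zero_of_le h
    have e2 : ((Nat.sub a b : ℕ) : ℝ) = (a : ℝ) - b := by
      rw [nsub]; exact Nat.cast_sub h
    rw [e1, e2]; simp

lemma abs_add_le_of_le {a b A B : ℝ} (h1 : |a| ≤ A) (h2 : |b| ≤ B) : |a + b| ≤ A + B :=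
  (abs_add_le a b).trans (add_le_add h1 h2)

lemma cv_abs (p n : ℕ) : |(p : ℝ) - n| ≤ (p : ℝ) + n := by
  rw [abs_le]
  have h1 : (0 : ℝ) ≤ p := Nat.cast_nonneg _
  have h2 : (0 : ℝ) ≤ n := Nat.cast_nonneg _
  constructor <;> linarith

lemma mono_le (i j : ℕ) {x y : ℝ} (hx : |x| ≤ 1) (hy : |y| ≤ 1) : |x ^ i * y ^ j| ≤ 1 := by
  rw [abs_mul, abs_pow, abs_pow]
  exact mul_le_one₀ (pow_le_one₀ (abs_nonneg _) hx) (by positivity) (pow_le_one₀ (abs_nonneg _) hy)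

lemma term_abs (p n i j : ℕ) {x y : ℝ} (hx : |x| ≤ 1) (hy : |y| ≤ 1) :
    |((p : ℝ) - n) * (x ^ i * y ^ j)| ≤ (p : ℝ) + n := by
  rw [abs_mul]
  have h1 := cv_abs p n
  have h2 := mono_le i j hx hy
  calc _ ≤ ((p : ℝ) + n) * 1 := mul_le_mul h1 h2 (abs_nonneg _) ((abs_nonneg _).trans h1)
    _ = _ := mul_one _

/-- Homogeneous part of degree 1. -/
noncomputable def h1 (t : TM) (x y : ℝ) : ℝ :=
  ((t.p10 : ℝ) - t.n10) * x + ((t.p01 : ℝ) - t.n01) * y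

/-- Norm of the part of degree 1. -/
noncomputable def n1 (t : TM) : ℕ := Nat.add (Nat.add t.p10 t.n10) (Nat.add t.p01 t.n01)

lemma h1_le (t : TM) {x y : ℝ} (hx : |x| ≤ 1) (hy : |y| ≤ 1) : |h1 t x y| ≤ (n1 t : ℝ) := by
  have a0 := abs_le.1 (term_abs t.p10 t.n10 1 0 hx hy)
  have a1 := abs_le.1 (term_abs t.p01 t.n01 0 1 hx hy)
  have e : ((n1 t : ℕ) : ℝ) = ((t.p10 : ℝ) + t.n10) + ((t.p01 : ℝ) + t.n01) := by
    simp only [n1, nadd]; push_cast; ring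
  have e2 : h1 t x y = ((t.p10 : ℝ) - t.n10) * (x ^ 1 * y ^ 0) + ((t.p01 : ℝ) - t.n01) * (x ^ 0 * y ^ 1) := by
    unfold h1; ring
  rw [e, e2, abs_le]
  constructor <;> linarith [a0.1, a0.2, a1.1, a1.2]

/-- Homogeneous part of degree 2. -/
noncomputable def h2 (t : TM) (x y : ℝ) : ℝ :=
  ((t.p20 : ℝ) - t.n20) * x^2 + ((t.p11 : ℝ) - t.n11) * x * y + ((t.p02 : ℝ) - t.n02) * y^2

/-- Norm of the part of degree 2. -/
noncomputable def n2 (t : TM) : ℕ := Nat.add (Nat.add (Nat.add t.p20 t.n20) (Nat.add t.p11 t.n11)) (Nat.add t.p02 t.n02)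

lemma h2_le (t : TM) {x y : ℝ} (hx : |x| ≤ 1) (hy : |y| ≤ 1) : |h2 t x y| ≤ (n2 t : ℝ) := by
  have a0 := abs_le.1 (term_abs t.p20 t.n20 2 0 hx hy)
  have a1 := abs_le.1 (term_abs t.p11 t.n11 1 1 hx hy)
  have a2 := abs_le.1 (term_abs t.p02 t.n02 0 2 hx hy)
  have e : ((n2 t : ℕ) : ℝ) = ((t.p20 : ℝ) + t.n20) + ((t.p11 : ℝ) + t.n11) + ((t.p02 : ℝ) + t.n02) := by
    simp only [n2, nadd]; push_cast; ring
  have e2 : h2 t x y = ((t.p20 : ℝ) - t.n20) * (x ^ 2 * y ^ 0) + ((t.p11 : ℝ) - t.n11) * (x ^ 1 * y ^ 1) + ((t.p02 : ℝ) - t.n02) * (x ^ 0 * y ^ 2) := by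
    unfold h2; ring
  rw [e, e2, abs_le]
  constructor <;> linarith [a0.1, a0.2, a1.1, a1.2, a2.1, a2.2]

/-- Homogeneous part of degree 3. -/
noncomputable def h3 (t : TM) (x y : ℝ) : ℝ :=
  ((t.p30 : ℝ) - t.n30) * x^3 + ((t.p21 : ℝ) - t.n21) * x^2 * y + ((t.p12 : ℝ) - t.n12) * x * y^2 + ((t.p03 : ℝ) - t.n03) * y^3

/-- Norm of the part of degree 3. -/
noncomputable def n3 (t : TM) : ℕ := Nat.add (Nat.add (Nat.add (Nat.add t.p30 t.n30) (Nat.add t.p21 t.n21)) (Nat.add t.p12 t.n12)) (Nat.add t.p03 t.n03)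

lemma h3_le (t : TM) {x y : ℝ} (hx : |x| ≤ 1) (hy : |y| ≤ 1) : |h3 t x y| ≤ (n3 t : ℝ) := by
  have a0 := abs_le.1 (term_abs t.p30 t.n30 3 0 hx hy)
  have a1 := abs_le.1 (term_abs t.p21 t.n21 2 1 hx hy)
  have a2 := abs_le.1 (term_abs t.p12 t.n12 1 2 hx hy)
  have a3 := abs_le.1 (term_abs t.p03 t.n03 0 3 hx hy)
  have e : ((n3 t : ℕ) : ℝ) = ((t.p30 : ℝ) + t.n30) + ((t.p21 : ℝ) + t.n21) + ((t.p12 : ℝ) + t.n12) + ((t.p03 : ℝ) + t.n03) := by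
    simp only [n3, nadd]; push_cast; ring
  have e2 : h3 t x y = ((t.p30 : ℝ) - t.n30) * (x ^ 3 * y ^ 0) + ((t.p21 : ℝ) - t.n21) * (x ^ 2 * y ^ 1) + ((t.p12 : ℝ) - t.n12) * (x ^ 1 * y ^ 2) + ((t.p03 : ℝ) - t.n03) * (x ^ 0 * y ^ 3) := by
    unfold h3; ring
  rw [e, e2, abs_le]
  constructor <;> linarith [a0.1, a0.2, a1.1, a1.2, a2.1, a2.2, a3.1, a3.2]

/-- Homogeneous part of degree 4. -/
noncomputable def h4 (t : TM) (x y : ℝ) : ℝ :=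
  ((t.p40 : ℝ) - t.n40) * x^4 + ((t.p31 : ℝ) - t.n31) * x^3 * y + ((t.p22 : ℝ) - t.n22) * x^2 * y^2 + ((t.p13 : ℝ) - t.n13) * x * y^3 + ((t.p04 : ℝ) - t.n04) * y^4

/-- Norm of the part of degree 4. -/
noncomputable def n4 (t : TM) : ℕ := Nat.add (Nat.add (Nat.add (Nat.add (Nat.add t.p40 t.n40) (Nat.add t.p31 t.n31)) (Nat.add t.p22 t.n22)) (Nat.add t.p13 t.n13)) (Nat.add t.p04 t.n04)

lemma h4_le (t : TM) {x y : ℝ} (hx : |x| ≤ 1) (hy : |y| ≤ 1) : |h4 t x y| ≤ (n4 t : ℝ) := by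
  have a0 := abs_le.1 (term_abs t.p40 t.n40 4 0 hx hy)
  have a1 := abs_le.1 (term_abs t.p31 t.n31 3 1 hx hy)
  have a2 := abs_le.1 (term_abs t.p22 t.n22 2 2 hx hy)
  have a3 := abs_le.1 (term_abs t.p13 t.n13 1 3 hx hy)
  have a4 := abs_le.1 (term_abs t.p04 t.n04 0 4 hx hy)
  have e : ((n4 t : ℕ) : ℝ) = ((t.p40 : ℝ) + t.n40) + ((t.p31 : ℝ) + t.n31) + ((t.p22 : ℝ) + t.n22) + ((t.p13 : ℝ) + t.n13) + ((t.p04 : ℝ) + t.n04) := by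
    simp only [n4, nadd]; push_cast; ring
  have e2 : h4 t x y = ((t.p40 : ℝ) - t.n40) * (x ^ 4 * y ^ 0) + ((t.p31 : ℝ) - t.n31) * (x ^ 3 * y ^ 1) + ((t.p22 : ℝ) - t.n22) * (x ^ 2 * y ^ 2) + ((t.p13 : ℝ) - t.n13) * (x ^ 1 * y ^ 3) + ((t.p04 : ℝ) - t.n04) * (x ^ 0 * y ^ 4) := by
    unfold h4; ring
  rw [e, e2, abs_le]
  constructor <;> linarith [a0.1, a0.2, a1.1, a1.2, a2.1, a2.2, a3.1, a3.2, a4.1, a4.2]

/-- The full norm. -/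
noncomputable def nrm (t : TM) : ℕ :=
  Nat.add (Nat.add t.p00 t.n00) (Nat.add (n1 t) (Nat.add (n2 t) (Nat.add (n3 t) (n4 t))))

lemma ev_eq (t : TM) (x y : ℝ) :
    ev t x y = ((t.p00 : ℝ) - t.n00) + h1 t x y + h2 t x y + h3 t x y + h4 t x y := by
  unfold ev h1 h2 h3 h4; ring

lemma ev_le (t : TM) {x y : ℝ} (hx : |x| ≤ 1) (hy : |y| ≤ 1) : |ev t x y| ≤ (nrm t : ℝ) := by
  have e1 := h1_le t hx hy
  have e2 := h2_le t hx hy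
  have e3 := h3_le t hx hy
  have e4 := h4_le t hx hy
  have e0 := cv_abs t.p00 t.n00
  have e : ((nrm t : ℕ) : ℝ) = ((t.p00 : ℝ) + t.n00) + n1 t + n2 t + n3 t + n4 t := by
    simp only [nrm, nadd]; push_cast; ring
  rw [e, ev_eq]
  rw [abs_le] at e0 e1 e2 e3 e4 ⊢
  constructor <;> linarith [e1.1, e1.2, e2.1, e2.2, e3.1, e3.2, e4.1, e4.2, e0.1, e0.2]

/-- Rounding of all coefficients. -/
noncomputable def rdT (t : TM) (e : ℕ) : TM :=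
  TM.rec (motive := fun _ => TM) (fun p00 n00 p10 n10 p01 n01 p20 n20 p11 n11 p02 n02 p30 n30 p21 n21 p12 n12 p03 n03 p40 n40 p31 n31 p22 n22 p13 n13 p04 n04 _ =>
    TM.mk (Nat.sub (Nat.div p00 S) (Nat.div n00 S)) (Nat.sub (Nat.div n00 S) (Nat.div p00 S)) (Nat.sub (Nat.div p10 S) (Nat.div n10 S)) (Nat.sub (Nat.div n10 S) (Nat.div p10 S)) (Nat.sub (Nat.div p01 S) (Nat.div n01 S)) (Nat.sub (Nat.div n01 S) (Nat.div p01 S)) (Nat.sub (Nat.div p20 S) (Nat.div n20 S)) (Nat.sub (Nat.div n20 S) (Nat.div p20 S)) (Nat.sub (Nat.div p11 S) (Nat.div n11 S)) (Nat.sub (Nat.div n11 S) (Nat.div p11 S)) (Nat.sub (Nat.div p02 S) (Nat.div n02 S)) (Nat.sub (Nat.div n02 S) (Nat.div p02 S)) (Nat.sub (Nat.div p30 S) (Nat.div n30 S)) (Nat.sub (Nat.div n30 S) (Nat.div p30 S)) (Nat.sub (Nat.div p21 S) (Nat.div n21 S)) (Nat.sub (Nat.div n21 S) (Nat.div p21 S)) (Nat.sub (Nat.div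 p12 S) (Nat.div n12 S)) (Nat.sub (Nat.div n12 S) (Nat.div p12 S)) (Nat.sub (Nat.div p03 S) (Nat.div n03 S)) (Nat.sub (Nat.div n03 S) (Nat.div p03 S)) (Nat.sub (Nat.div p40 S) (Nat.div n40 S)) (Nat.sub (Nat.div n40 S) (Nat.div p40 S)) (Nat.sub (Nat.div p31 S) (Nat.div n31 S)) (Nat.sub (Nat.div n31 S) (Nat.div p31 S)) (Nat.sub (Nat.div p22 S) (Nat.div n22 S)) (Nat.sub (Nat.div n22 S) (Nat.div p22 S)) (Nat.sub (Nat.div p13 S) (Nat.div n13 S)) (Nat.sub (Nat.div n13 S) (Nat.div p13 S)) (Nat.sub (Nat.div p04 S) (Nat.div n04 S)) (Nat.sub (Nat.div n04 S) (Nat.div p04 S)) e) t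

lemma rho_le (a b i j : ℕ) {x y : ℝ} (hx : |x| ≤ 1) (hy : |y| ≤ 1) :
    |(((a : ℝ) - b) - S * (((Nat.sub (Nat.div a S) (Nat.div b S) : ℕ) : ℝ)
      - ((Nat.sub (Nat.div b S) (Nat.div a S) : ℕ) : ℝ))) * (x ^ i * y ^ j)| ≤ (S : ℝ) := by
  have hS : 0 < S := by norm_num [S]
  rw [nat_sub_val, abs_mul]
  have h1 := Nat.div_add_mod a S
  have h2 := Nat.mod_lt a hS
  have h3 := Nat.div_add_mod b S
  have h4 := Nat.mod_lt b hS
  have h1' : (S : ℝ) * ((a / S : ℕ) : ℝ) + ((a % S : ℕ) : ℝ) = a := by exact_mod_cast h1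
  have h2' : ((a % S : ℕ) : ℝ) < S := by exact_mod_cast h2
  have h3' : (S : ℝ) * ((b / S : ℕ) : ℝ) + ((b % S : ℕ) : ℝ) = b := by exact_mod_cast h3
  have h4' : ((b % S : ℕ) : ℝ) < S := by exact_mod_cast h4
  have h5 : (0 : ℝ) ≤ ((a % S : ℕ) : ℝ) := Nat.cast_nonneg _
  have h6 : (0 : ℝ) ≤ ((b % S : ℕ) : ℝ) := Nat.cast_nonneg _
  have h7 : |((a : ℝ) - b) - S * (((Nat.div a S : ℕ) : ℝ) - ((Nat.div b S : ℕ) : ℝ))| ≤ (S : ℝ) := by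
    rw [ndiv, ndiv, abs_le]
    constructor <;> nlinarith
  have h8 := mono_le i j hx hy
  calc _ ≤ (S : ℝ) * 1 := mul_le_mul h7 h8 (abs_nonneg _) S_pos.le
    _ = _ := mul_one _

lemma rdT_spec (t : TM) (e : ℕ) {x y : ℝ} (hx : |x| ≤ 1) (hy : |y| ≤ 1) :
    |ev t x y - S * ev (rdT t e) x y| ≤ 15 * (S : ℝ) := by
  have a0 := abs_le.1 (rho_le t.p00 t.n00 0 0 hx hy)
  have a1 := abs_le.1 (rho_le t.p10 t.n10 1 0 hx hy)
  have a2 := abs_le.1 (rho_le t.p01 t.n01 0 1 hx hy)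
  have a3 := abs_le.1 (rho_le t.p20 t.n20 2 0 hx hy)
  have a4 := abs_le.1 (rho_le t.p11 t.n11 1 1 hx hy)
  have a5 := abs_le.1 (rho_le t.p02 t.n02 0 2 hx hy)
  have a6 := abs_le.1 (rho_le t.p30 t.n30 3 0 hx hy)
  have a7 := abs_le.1 (rho_le t.p21 t.n21 2 1 hx hy)
  have a8 := abs_le.1 (rho_le t.p12 t.n12 1 2 hx hy)
  have a9 := abs_le.1 (rho_le t.p03 t.n03 0 3 hx hy)
  have a10 := abs_le.1 (rho_le t.p40 t.n40 4 0 hx hy)
  have a11 := abs_le.1 (rho_le t.p31 t.n31 3 1 hx hy)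
  have a12 := abs_le.1 (rho_le t.p22 t.n22 2 2 hx hy)
  have a13 := abs_le.1 (rho_le t.p13 t.n13 1 3 hx hy)
  have a14 := abs_le.1 (rho_le t.p04 t.n04 0 4 hx hy)
  have e1 : ev t x y - S * ev (rdT t e) x y = ((t.p00 : ℝ) - t.n00 - S * (((Nat.sub (Nat.div t.p00 S) (Nat.div t.n00 S) : ℕ) : ℝ) - ((Nat.sub (Nat.div t.n00 S) (Nat.div t.p00 S) : ℕ) : ℝ))) * (x ^ 0 * y ^ 0) + ((t.p10 : ℝ) - t.n10 - S * (((Nat.sub (Nat.div t.p10 S) (Nat.div t.n10 S) : ℕ) : ℝ) - ((Nat.sub (Nat.div t.n10 S) (Nat.div t.p10 S) : ℕ) : ℝ))) * (x ^ 1 * y ^ 0) + ((t.p01 : ℝ) - t.n01 - S * (((Nat.sub (Nat.div t.p01 S) (Nat.div t.n01 S) : ℕ) : ℝ) - ((Nat.sub (Nat.div t.n01 S) (Nat.div t.p01 S) : ℕ) : ℝ))) * (x ^ 0 * y ^ 1) + ((t.p20 : ℝ) - t.n20 - S * (((Nat.sub (Nat.div t.p20 S) (Nat.div t.n20 S) : ℕ) : ℝ) - ((Nat.sub (Nat.div t.n20 S) (Nat.div t.p20 S) : ℕ) : ℝ))) * (x ^ 2 * y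 ^ 0) + ((t.p11 : ℝ) - t.n11 - S * (((Nat.sub (Nat.div t.p11 S) (Nat.div t.n11 S) : ℕ) : ℝ) - ((Nat.sub (Nat.div t.n11 S) (Nat.div t.p11 S) : ℕ) : ℝ))) * (x ^ 1 * y ^ 1) + ((t.p02 : ℝ) - t.n02 - S * (((Nat.sub (Nat.div t.p02 S) (Nat.div t.n02 S) : ℕ) : ℝ) - ((Nat.sub (Nat.div t.n02 S) (Nat.div t.p02 S) : ℕ) : ℝ))) * (x ^ 0 * y ^ 2) + ((t.p30 : ℝ) - t.n30 - S * (((Nat.sub (Nat.div t.p30 S) (Nat.div t.n30 S) : ℕ) : ℝ) - ((Nat.sub (Nat.div t.n30 S) (Nat.div t.p30 S) : ℕ) : ℝ))) * (x ^ 3 * y ^ 0) + ((t.p21 : ℝ) - t.n21 - S * (((Nat.sub (Nat.div t.p21 S) (Nat.div t.n21 S) : ℕ) : ℝ) - ((Nat.sub (Nat.div t.n21 S) (Nat.div t.p21 S) : ℕ) : ℝ))) * (x ^ 2 * y ^ 1) + ((t.p12 : ℝ) - t.n12 - S * (((Nat.sub (Nat.div t.p12 S) (Nat.div t.n12 S) : ℕ) : ℝ) - ((Nat.sub (Nat.div t.n12 S) (Nat.div t.p12 S) : ℕ) : ℝ))) * (x ^ 1 * y ^ 2) + ((t.p03 : ℝ) - t.n03 - S * (((Nat.sub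 (Nat.div t.p03 S) (Nat.div t.n03 S) : ℕ) : ℝ) - ((Nat.sub (Nat.div t.n03 S) (Nat.div t.p03 S) : ℕ) : ℝ))) * (x ^ 0 * y ^ 3) + ((t.p40 : ℝ) - t.n40 - S * (((Nat.sub (Nat.div t.p40 S) (Nat.div t.n40 S) : ℕ) : ℝ) - ((Nat.sub (Nat.div t.n40 S) (Nat.div t.p40 S) : ℕ) : ℝ))) * (x ^ 4 * y ^ 0) + ((t.p31 : ℝ) - t.n31 - S * (((Nat.sub (Nat.div t.p31 S) (Nat.div t.n31 S) : ℕ) : ℝ) - ((Nat.sub (Nat.div t.n31 S) (Nat.div t.p31 S) : ℕ) : ℝ))) * (x ^ 3 * y ^ 1) + ((t.p22 : ℝ) - t.n22 - S * (((Nat.sub (Nat.div t.p22 S) (Nat.div t.n22 S) : ℕ) : ℝ) - ((Nat.sub (Nat.div t.n22 S) (Nat.div t.p22 S) : ℕ) : ℝ))) * (x ^ 2 * y ^ 2) + ((t.p13 : ℝ) - t.n13 - S * (((Nat.sub (Nat.div t.p13 S) (Nat.div t.n13 S) : ℕ) : ℝ) - ((Nat.sub (Nat.div t.n13 S) (Nat.div t.p13 S) : ℕ) : ℝ))) * (x ^ 1 * y ^ 3) + ((t.p04 : ℝ) - t.n04 - S * (((Nat.sub (Nat.div t.p04 S) (Nat.div t.n04 S)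 : ℕ) : ℝ) - ((Nat.sub (Nat.div t.n04 S) (Nat.div t.p04 S) : ℕ) : ℝ))) * (x ^ 0 * y ^ 4) := by
    cases t
    simp only [rdT, ev]
    ring
  rw [e1, abs_le]
  constructor <;> linarith [a0.1, a0.2, a1.1, a1.2, a2.1, a2.2, a3.1, a3.2, a4.1, a4.2, a5.1, a5.2, a6.1, a6.2, a7.1, a7.2, a8.1, a8.2, a9.1, a9.2, a10.1, a10.2, a11.1, a11.2, a12.1, a12.2, a13.1, a13.2, a14.1, a14.2]

/-- The raw product, truncated at degree four. -/
noncomputable def mulR (a b : TM) : TM :=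
  TM.rec (motive := fun _ => TM) (fun ap00 an00 ap10 an10 ap01 an01 ap20 an20 ap11 an11 ap02 an02 ap30 an30 ap21 an21 ap12 an12 ap03 an03 ap40 an40 ap31 an31 ap22 an22 ap13 an13 ap04 an04 _ =>
  TM.rec (motive := fun _ => TM) (fun bp00 bn00 bp10 bn10 bp01 bn01 bp20 bn20 bp11 bn11 bp02 bn02 bp30 bn30 bp21 bn21 bp12 bn12 bp03 bn03 bp40 bn40 bp31 bn31 bp22 bn22 bp13 bn13 bp04 bn04 _ =>
    TM.mk (Nat.add (Nat.mul ap00 bp00) (Nat.mul an00 bn00)) (Nat.add (Nat.mul ap00 bn00) (Nat.mul an00 bp00)) (Nat.add (Nat.add (Nat.mul ap00 bp10) (Nat.mul an00 bn10)) (Nat.add (Nat.mul ap10 bp00) (Nat.mul an10 bn00))) (Nat.add (Nat.add (Nat.mul ap00 bn10) (Nat.mul an00 bp10)) (Nat.add (Nat.mul ap10 bn00) (Nat.mul an10 bp00))) (Nat.add (Nat.add (Nat.mul ap00 bp01) (Nat.mul an00 bn01)) (Nat.add (Nat.mul ap01 bp00) (Nat.mul an01 bn00))) (Nat.add (Nat.add (Nat.mul ap00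 bn01) (Nat.mul an00 bp01)) (Nat.add (Nat.mul ap01 bn00) (Nat.mul an01 bp00))) (Nat.add (Nat.add (Nat.add (Nat.mul ap00 bp20) (Nat.mul an00 bn20)) (Nat.add (Nat.mul ap10 bp10) (Nat.mul an10 bn10))) (Nat.add (Nat.mul ap20 bp00) (Nat.mul an20 bn00))) (Nat.add (Nat.add (Nat.add (Nat.mul ap00 bn20) (Nat.mul an00 bp20)) (Nat.add (Nat.mul ap10 bn10) (Nat.mul an10 bp10))) (Nat.add (Nat.mul ap20 bn00) (Nat.mul an20 bp00))) (Nat.add (Nat.add (Nat.add (Nat.add (Nat.mul ap00 bp11) (Nat.mul an00 bn11)) (Nat.add (Nat.mul ap10 bp01) (Nat.mul an10 bn01))) (Nat.add (Nat.mul ap01 bp10) (Nat.mul an01 bn10))) (Nat.add (Nat.mul ap11 bp00) (Nat.mul an11 bn00))) (Nat.add (Nat.add (Nat.add (Nat.add (Nat.mul ap00 bn11) (Nat.mul an00 bp11)) (Nat.add (Nat.mul ap10 bn01) (Nat.mul an10 bp01))) (Nat.add (Nat.mul ap01 bn10) (Nat.mul an01 bp10))) (Nat.add (Nat.mul ap11 bn00)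 (Nat.mul an11 bp00))) (Nat.add (Nat.add (Nat.add (Nat.mul ap00 bp02) (Nat.mul an00 bn02)) (Nat.add (Nat.mul ap01 bp01) (Nat.mul an01 bn01))) (Nat.add (Nat.mul ap02 bp00) (Nat.mul an02 bn00))) (Nat.add (Nat.add (Nat.add (Nat.mul ap00 bn02) (Nat.mul an00 bp02)) (Nat.add (Nat.mul ap01 bn01) (Nat.mul an01 bp01))) (Nat.add (Nat.mul ap02 bn00) (Nat.mul an02 bp00))) (Nat.add (Nat.add (Nat.add (Nat.add (Nat.mul ap00 bp30) (Nat.mul an00 bn30)) (Nat.add (Nat.mul ap10 bp20) (Nat.mul an10 bn20))) (Nat.add (Nat.mul ap20 bp10) (Nat.mul an20 bn10))) (Nat.add (Nat.mul ap30 bp00) (Nat.mul an30 bn00))) (Nat.add (Nat.add (Nat.add (Nat.add (Nat.mul ap00 bn30) (Nat.mul an00 bp30)) (Nat.add (Nat.mul ap10 bn20) (Nat.mul an10 bp20))) (Nat.add (Nat.mul ap20 bn10) (Nat.mul an20 bp10))) (Nat.add (Nat.mul ap30 bn00) (Nat.mul an30 bp00))) (Nat.add (Nat.add (Nat.add (Nat.add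 (Nat.add (Nat.add (Nat.mul ap00 bp21) (Nat.mul an00 bn21)) (Nat.add (Nat.mul ap10 bp11) (Nat.mul an10 bn11))) (Nat.add (Nat.mul ap01 bp20) (Nat.mul an01 bn20))) (Nat.add (Nat.mul ap20 bp01) (Nat.mul an20 bn01))) (Nat.add (Nat.mul ap11 bp10) (Nat.mul an11 bn10))) (Nat.add (Nat.mul ap21 bp00) (Nat.mul an21 bn00))) (Nat.add (Nat.add (Nat.add (Nat.add (Nat.add (Nat.add (Nat.mul ap00 bn21) (Nat.mul an00 bp21)) (Nat.add (Nat.mul ap10 bn11) (Nat.mul an10 bp11))) (Nat.add (Nat.mul ap01 bn20) (Nat.mul an01 bp20))) (Nat.add (Nat.mul ap20 bn01) (Nat.mul an20 bp01))) (Nat.add (Nat.mul ap11 bn10) (Nat.mul an11 bp10))) (Nat.add (Nat.mul ap21 bn00) (Nat.mul an21 bp00))) (Nat.add (Nat.add (Nat.add (Nat.add (Nat.add (Nat.add (Nat.mul ap00 bp12) (Nat.mul an00 bn12)) (Nat.add (Nat.mul ap10 bp02) (Nat.mul an10 bn02))) (Nat.add (Nat.mul ap01 bp11) (Nat.mul an01 bn11)))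 (Nat.add (Nat.mul ap11 bp01) (Nat.mul an11 bn01))) (Nat.add (Nat.mul ap02 bp10) (Nat.mul an02 bn10))) (Nat.add (Nat.mul ap12 bp00) (Nat.mul an12 bn00))) (Nat.add (Nat.add (Nat.add (Nat.add (Nat.add (Nat.add (Nat.mul ap00 bn12) (Nat.mul an00 bp12)) (Nat.add (Nat.mul ap10 bn02) (Nat.mul an10 bp02))) (Nat.add (Nat.mul ap01 bn11) (Nat.mul an01 bp11))) (Nat.add (Nat.mul ap11 bn01) (Nat.mul an11 bp01))) (Nat.add (Nat.mul ap02 bn10) (Nat.mul an02 bp10))) (Nat.add (Nat.mul ap12 bn00) (Nat.mul an12 bp00))) (Nat.add (Nat.add (Nat.add (Nat.add (Nat.mul ap00 bp03) (Nat.mul an00 bn03)) (Nat.add (Nat.mul ap01 bp02) (Nat.mul an01 bn02))) (Nat.add (Nat.mul ap02 bp01) (Nat.mul an02 bn01))) (Nat.add (Nat.mul ap03 bp00) (Nat.mul an03 bn00))) (Nat.add (Nat.add (Nat.add (Nat.add (Nat.mul ap00 bn03) (Nat.mul an00 bp03)) (Nat.add (Nat.mul ap01 bn02) (Nat.mul an01 bp02)))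 (Nat.add (Nat.mul ap02 bn01) (Nat.mul an02 bp01))) (Nat.add (Nat.mul ap03 bn00) (Nat.mul an03 bp00))) (Nat.add (Nat.add (Nat.add (Nat.add (Nat.add (Nat.mul ap00 bp40) (Nat.mul an00 bn40)) (Nat.add (Nat.mul ap10 bp30) (Nat.mul an10 bn30))) (Nat.add (Nat.mul ap20 bp20) (Nat.mul an20 bn20))) (Nat.add (Nat.mul ap30 bp10) (Nat.mul an30 bn10))) (Nat.add (Nat.mul ap40 bp00) (Nat.mul an40 bn00))) (Nat.add (Nat.add (Nat.add (Nat.add (Nat.add (Nat.mul ap00 bn40) (Nat.mul an00 bp40)) (Nat.add (Nat.mul ap10 bn30) (Nat.mul an10 bp30))) (Nat.add (Nat.mul ap20 bn20) (Nat.mul an20 bp20))) (Nat.add (Nat.mul ap30 bn10) (Nat.mul an30 bp10))) (Nat.add (Nat.mul ap40 bn00) (Nat.mul an40 bp00))) (Nat.add (Nat.add (Nat.add (Nat.add (Nat.add (Nat.add (Nat.add (Nat.add (Nat.mul ap00 bp31) (Nat.mul an00 bn31)) (Nat.add (Nat.mul ap10 bp21) (Nat.mul an10 bn21))) (Nat.add (Nat.mul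 ap01 bp30) (Nat.mul an01 bn30))) (Nat.add (Nat.mul ap20 bp11) (Nat.mul an20 bn11))) (Nat.add (Nat.mul ap11 bp20) (Nat.mul an11 bn20))) (Nat.add (Nat.mul ap30 bp01) (Nat.mul an30 bn01))) (Nat.add (Nat.mul ap21 bp10) (Nat.mul an21 bn10))) (Nat.add (Nat.mul ap31 bp00) (Nat.mul an31 bn00))) (Nat.add (Nat.add (Nat.add (Nat.add (Nat.add (Nat.add (Nat.add (Nat.add (Nat.mul ap00 bn31) (Nat.mul an00 bp31)) (Nat.add (Nat.mul ap10 bn21) (Nat.mul an10 bp21))) (Nat.add (Nat.mul ap01 bn30) (Nat.mul an01 bp30))) (Nat.add (Nat.mul ap20 bn11) (Nat.mul an20 bp11))) (Nat.add (Nat.mul ap11 bn20) (Nat.mul an11 bp20))) (Nat.add (Nat.mul ap30 bn01) (Nat.mul an30 bp01))) (Nat.add (Nat.mul ap21 bn10) (Nat.mul an21 bp10))) (Nat.add (Nat.mul ap31 bn00) (Nat.mul an31 bp00))) (Nat.add (Nat.add (Nat.add (Nat.add (Nat.add (Nat.add (Nat.add (Nat.add (Nat.add (Nat.mul ap00 bp22)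 (Nat.mul an00 bn22)) (Nat.add (Nat.mul ap10 bp12) (Nat.mul an10 bn12))) (Nat.add (Nat.mul ap01 bp21) (Nat.mul an01 bn21))) (Nat.add (Nat.mul ap20 bp02) (Nat.mul an20 bn02))) (Nat.add (Nat.mul ap11 bp11) (Nat.mul an11 bn11))) (Nat.add (Nat.mul ap02 bp20) (Nat.mul an02 bn20))) (Nat.add (Nat.mul ap21 bp01) (Nat.mul an21 bn01))) (Nat.add (Nat.mul ap12 bp10) (Nat.mul an12 bn10))) (Nat.add (Nat.mul ap22 bp00) (Nat.mul an22 bn00))) (Nat.add (Nat.add (Nat.add (Nat.add (Nat.add (Nat.add (Nat.add (Nat.add (Nat.add (Nat.mul ap00 bn22) (Nat.mul an00 bp22)) (Nat.add (Nat.mul ap10 bn12) (Nat.mul an10 bp12))) (Nat.add (Nat.mul ap01 bn21) (Nat.mul an01 bp21))) (Nat.add (Nat.mul ap20 bn02) (Nat.mul an20 bp02))) (Nat.add (Nat.mul ap11 bn11) (Nat.mul an11 bp11))) (Nat.add (Nat.mul ap02 bn20) (Nat.mul an02 bp20))) (Nat.add (Nat.mul ap21 bn01) (Nat.mul an21 bp01)))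 (Nat.add (Nat.mul ap12 bn10) (Nat.mul an12 bp10))) (Nat.add (Nat.mul ap22 bn00) (Nat.mul an22 bp00))) (Nat.add (Nat.add (Nat.add (Nat.add (Nat.add (Nat.add (Nat.add (Nat.add (Nat.mul ap00 bp13) (Nat.mul an00 bn13)) (Nat.add (Nat.mul ap10 bp03) (Nat.mul an10 bn03))) (Nat.add (Nat.mul ap01 bp12) (Nat.mul an01 bn12))) (Nat.add (Nat.mul ap11 bp02) (Nat.mul an11 bn02))) (Nat.add (Nat.mul ap02 bp11) (Nat.mul an02 bn11))) (Nat.add (Nat.mul ap12 bp01) (Nat.mul an12 bn01))) (Nat.add (Nat.mul ap03 bp10) (Nat.mul an03 bn10))) (Nat.add (Nat.mul ap13 bp00) (Nat.mul an13 bn00))) (Nat.add (Nat.add (Nat.add (Nat.add (Nat.add (Nat.add (Nat.add (Nat.add (Nat.mul ap00 bn13) (Nat.mul an00 bp13)) (Nat.add (Nat.mul ap10 bn03) (Nat.mul an10 bp03))) (Nat.add (Nat.mul ap01 bn12) (Nat.mul an01 bp12))) (Nat.add (Nat.mul ap11 bn02) (Nat.mul an11 bp02))) (Nat.add (Nat.mul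 ap02 bn11) (Nat.mul an02 bp11))) (Nat.add (Nat.mul ap12 bn01) (Nat.mul an12 bp01))) (Nat.add (Nat.mul ap03 bn10) (Nat.mul an03 bp10))) (Nat.add (Nat.mul ap13 bn00) (Nat.mul an13 bp00))) (Nat.add (Nat.add (Nat.add (Nat.add (Nat.add (Nat.mul ap00 bp04) (Nat.mul an00 bn04)) (Nat.add (Nat.mul ap01 bp03) (Nat.mul an01 bn03))) (Nat.add (Nat.mul ap02 bp02) (Nat.mul an02 bn02))) (Nat.add (Nat.mul ap03 bp01) (Nat.mul an03 bn01))) (Nat.add (Nat.mul ap04 bp00) (Nat.mul an04 bn00))) (Nat.add (Nat.add (Nat.add (Nat.add (Nat.add (Nat.mul ap00 bn04) (Nat.mul an00 bp04)) (Nat.add (Nat.mul ap01 bn03) (Nat.mul an01 bp03))) (Nat.add (Nat.mul ap02 bn02) (Nat.mul an02 bp02))) (Nat.add (Nat.mul ap03 bn01) (Nat.mul an03 bp01))) (Nat.add (Nat.mul ap04 bn00) (Nat.mul an04 bp00))) 0) b) a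

/-- The neglected part of a product. -/
noncomputable def hiF (a b : TM) (x y : ℝ) : ℝ :=
  h1 a x y * h4 b x y + h2 a x y * (h3 b x y + h4 b x y)
    + h3 a x y * (h2 b x y + h3 b x y + h4 b x y)
    + h4 a x y * (h1 b x y + h2 b x y + h3 b x y + h4 b x y)

/-- Its bound. -/
noncomputable def hiN (a b : TM) : ℕ :=
  Nat.add (Nat.add (Nat.add (Nat.mul (n1 a) (n4 b)) (Nat.mul (n2 a) (Nat.add (n3 b) (n4 b))))
    (Nat.mul (n3 a) (Nat.add (n2 b) (Nat.add (n3 b) (n4 b)))))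
    (Nat.mul (n4 a) (Nat.add (n1 b) (Nat.add (n2 b) (Nat.add (n3 b) (n4 b)))))

lemma ev_mulR (a b : TM) (x y : ℝ) :
    ev a x y * ev b x y = ev (mulR a b) x y + hiF a b x y := by
  cases a
  cases b
  simp only [mulR, ev, hiF, h1, h2, h3, h4, nadd, nmul]
  push_cast
  ring

lemma hiF_le (a b : TM) {x y : ℝ} (hx : |x| ≤ 1) (hy : |y| ≤ 1) :
    |hiF a b x y| ≤ (hiN a b : ℝ) := by
  have a1 := h1_le a hx hy
  have a2 := h2_le a hx hy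
  have a3 := h3_le a hx hy
  have a4 := h4_le a hx hy
  have b1 := h1_le b hx hy
  have b2 := h2_le b hx hy
  have b3 := h3_le b hx hy
  have b4 := h4_le b hx hy
  have e : ((hiN a b : ℕ) : ℝ) = (n1 a : ℝ) * n4 b + (n2 a : ℝ) * (n3 b + n4 b)
      + (n3 a : ℝ) * (n2 b + n3 b + n4 b) + (n4 a : ℝ) * (n1 b + n2 b + n3 b + n4 b) := by
    simp only [hiN, nadd, nmul]; push_cast; ring
  rw [e]
  unfold hiF
  have key : ∀ (p q P Q : ℝ), |p| ≤ P → |q| ≤ Q → |p * q| ≤ P * Q := fun p q P Q h1 h2 => by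
    rw [abs_mul]; exact mul_le_mul h1 h2 (abs_nonneg _) ((abs_nonneg _).trans h1)
  have t1 := key _ _ _ _ a1 b4
  have t2 := key _ _ _ _ a2 (abs_add_le_of_le b3 b4)
  have t3 := key _ _ _ _ a3 (abs_add_le_of_le (abs_add_le_of_le b2 b3) b4)
  have t4 := key _ _ _ _ a4 (abs_add_le_of_le (abs_add_le_of_le (abs_add_le_of_le b1 b2) b3) b4)
  rw [abs_le] at t1 t2 t3 t4 ⊢
  constructor <;> linarith [t1.1, t1.2, t2.1, t2.2, t3.1, t3.2, t4.1, t4.2]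

/-- The error of a product. -/
noncomputable def mulE (a b : TM) : ℕ :=
  Nat.add (Nat.div (Nat.add (Nat.add (Nat.add (hiN a b) (Nat.mul (nrm a) b.e)) (Nat.mul (nrm b) a.e))
    (Nat.mul a.e b.e)) S) 16

/-- Product of Taylor models. -/
noncomputable def mul (a b : TM) : TM := rdT (mulR a b) (mulE a b)

lemma div_bound (E : ℕ) : ((E : ℝ)) / S ≤ ((E / S : ℕ) : ℝ) + 1 := by
  have hS : 0 < S := by norm_num [S]
  have h1 := Nat.div_add_mod E S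
  have h2 := Nat.mod_lt E hS
  have h1' : (S : ℝ) * ((E / S : ℕ) : ℝ) + ((E % S : ℕ) : ℝ) = E := by exact_mod_cast h1
  have h2' : ((E % S : ℕ) : ℝ) < S := by exact_mod_cast h2
  rw [div_le_iff₀ S_pos]
  nlinarith

theorem Enc.mul {f g : ℝ → ℝ → ℝ} {a b : TM} (hf : Enc f a) (hg : Enc g b) :
    Enc (fun x y => f x y * g x y) (Tm.mul a b) := by
  intro x y hx hy
  have h1 := hf x y hx hy
  have h2 := hg x y hx hy
  have h3 := ev_le a hx hy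
  have h4 := ev_le b hx hy
  have h5 := ev_mulR a b x y
  have h6 := hiF_le a b hx hy
  have h7 := rdT_spec (mulR a b) (mulE a b) hx hy
  have e1 : (Tm.mul a b).e = mulE a b := by
    show (rdT (mulR a b) (mulE a b)).e = _
    cases a; cases b; rfl
  rw [e1]
  change |(S : ℝ) * (f x y * g x y) - ev (rdT (mulR a b) (mulE a b)) x y| ≤ _
  set T := ev (rdT (mulR a b) (mulE a b)) x y with hT
  set R := ev (mulR a b) x y
  set P := ev a x y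
  set Q := ev b x y
  set F := (S : ℝ) * f x y with hF
  set G := (S : ℝ) * g x y with hG
  set H := hiF a b x y
  set E : ℕ := Nat.add (Nat.add (Nat.add (hiN a b) (Nat.mul (nrm a) b.e)) (Nat.mul (nrm b) a.e))
    (Nat.mul a.e b.e) with hE
  have hEr : (E : ℝ) = (hiN a b : ℝ) + (nrm a : ℝ) * b.e + (nrm b : ℝ) * a.e + (a.e : ℝ) * b.e := by
    simp only [hE, nadd, nmul]; push_cast; ring
  have key : ∀ (p q A B : ℝ), |p| ≤ A → |q| ≤ B → |p * q| ≤ A * B := fun p q A B h1 h2 => by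
    rw [abs_mul]; exact mul_le_mul h1 h2 (abs_nonneg _) ((abs_nonneg _).trans h1)
  have t1 := key _ _ _ _ h1 h2
  have t2 := key _ _ _ _ h1 h4
  have t3 := key _ _ _ _ h3 h2
  have main : (S : ℝ) * ((S : ℝ) * (f x y * g x y) - T)
      = (F - P) * (G - Q) + (F - P) * Q + P * (G - Q) + H + (R - S * T) := by
    rw [hF, hG]
    have : P * Q = R + H := h5
    linear_combination this
  have h8 : |(S : ℝ) * ((S : ℝ) * (f x y * g x y) - T)| ≤ (E : ℝ) + 15 * S := by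
    rw [main, hEr]
    rw [abs_le] at t1 t2 t3 h6 h7 ⊢
    constructor <;> nlinarith [t1.1, t1.2, t2.1, t2.2, t3.1, t3.2, h6.1, h6.2, h7.1, h7.2]
  rw [abs_mul, abs_of_pos S_pos] at h8
  have h9 : |(S : ℝ) * (f x y * g x y) - T| ≤ (E : ℝ) / S + 15 := by
    rw [div_add' _ _ _ S_pos.ne', le_div_iff₀ S_pos]
    linarith
  have h10 := div_bound E
  have e2 : ((mulE a b : ℕ) : ℝ) = ((E / S : ℕ) : ℝ) + 16 := by
    have : mulE a b = E / S + 16 := rfl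
    rw [this]
    push_cast
    ring
  rw [e2]
  linarith

/-- Sum. -/
noncomputable def add (a b : TM) : TM :=
  TM.rec (motive := fun _ => TM) (fun ap00 an00 ap10 an10 ap01 an01 ap20 an20 ap11 an11 ap02 an02 ap30 an30 ap21 an21 ap12 an12 ap03 an03 ap40 an40 ap31 an31 ap22 an22 ap13 an13 ap04 an04 ae =>
  TM.rec (motive := fun _ => TM) (fun bp00 bn00 bp10 bn10 bp01 bn01 bp20 bn20 bp11 bn11 bp02 bn02 bp30 bn30 bp21 bn21 bp12 bn12 bp03 bn03 bp40 bn40 bp31 bn31 bp22 bn22 bp13 bn13 bp04 bn04 be =>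
    TM.mk (Nat.sub (Nat.add ap00 bp00) (Nat.add an00 bn00)) (Nat.sub (Nat.add an00 bn00) (Nat.add ap00 bp00)) (Nat.sub (Nat.add ap10 bp10) (Nat.add an10 bn10)) (Nat.sub (Nat.add an10 bn10) (Nat.add ap10 bp10)) (Nat.sub (Nat.add ap01 bp01) (Nat.add an01 bn01)) (Nat.sub (Nat.add an01 bn01) (Nat.add ap01 bp01)) (Nat.sub (Nat.add ap20 bp20) (Nat.add an20 bn20)) (Nat.sub (Nat.add an20 bn20) (Nat.add ap20 bp20)) (Nat.sub (Nat.add ap11 bp11) (Nat.add an11 bn11)) (Nat.sub (Nat.add an11 bn11) (Nat.add ap11 bp11)) (Nat.sub (Nat.add ap02 bp02) (Nat.add an02 bn02)) (Nat.sub (Nat.add an02 bn02) (Nat.add ap02 bp02)) (Nat.sub (Nat.add ap30 bp30) (Nat.add an30 bn30)) (Nat.sub (Nat.add an30 bn30) (Nat.add ap30 bp30)) (Nat.sub (Nat.add ap21 bp21) (Nat.add an21 bn21)) (Nat.sub (Nat.add an21 bn21) (Nat.add ap21 bp21)) (Nat.sub (Nat.add ap12 bp12) (Nat.add an12 bn12))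 (Nat.sub (Nat.add an12 bn12) (Nat.add ap12 bp12)) (Nat.sub (Nat.add ap03 bp03) (Nat.add an03 bn03)) (Nat.sub (Nat.add an03 bn03) (Nat.add ap03 bp03)) (Nat.sub (Nat.add ap40 bp40) (Nat.add an40 bn40)) (Nat.sub (Nat.add an40 bn40) (Nat.add ap40 bp40)) (Nat.sub (Nat.add ap31 bp31) (Nat.add an31 bn31)) (Nat.sub (Nat.add an31 bn31) (Nat.add ap31 bp31)) (Nat.sub (Nat.add ap22 bp22) (Nat.add an22 bn22)) (Nat.sub (Nat.add an22 bn22) (Nat.add ap22 bp22)) (Nat.sub (Nat.add ap13 bp13) (Nat.add an13 bn13)) (Nat.sub (Nat.add an13 bn13) (Nat.add ap13 bp13)) (Nat.sub (Nat.add ap04 bp04) (Nat.add an04 bn04)) (Nat.sub (Nat.add an04 bn04) (Nat.add ap04 bp04)) (Nat.add ae be)) b) a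

/-- Difference. -/
noncomputable def sub (a b : TM) : TM :=
  TM.rec (motive := fun _ => TM) (fun ap00 an00 ap10 an10 ap01 an01 ap20 an20 ap11 an11 ap02 an02 ap30 an30 ap21 an21 ap12 an12 ap03 an03 ap40 an40 ap31 an31 ap22 an22 ap13 an13 ap04 an04 ae =>
  TM.rec (motive := fun _ => TM) (fun bp00 bn00 bp10 bn10 bp01 bn01 bp20 bn20 bp11 bn11 bp02 bn02 bp30 bn30 bp21 bn21 bp12 bn12 bp03 bn03 bp40 bn40 bp31 bn31 bp22 bn22 bp13 bn13 bp04 bn04 be =>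
    TM.mk (Nat.sub (Nat.add ap00 bn00) (Nat.add an00 bp00)) (Nat.sub (Nat.add an00 bp00) (Nat.add ap00 bn00)) (Nat.sub (Nat.add ap10 bn10) (Nat.add an10 bp10)) (Nat.sub (Nat.add an10 bp10) (Nat.add ap10 bn10)) (Nat.sub (Nat.add ap01 bn01) (Nat.add an01 bp01)) (Nat.sub (Nat.add an01 bp01) (Nat.add ap01 bn01)) (Nat.sub (Nat.add ap20 bn20) (Nat.add an20 bp20)) (Nat.sub (Nat.add an20 bp20) (Nat.add ap20 bn20)) (Nat.sub (Nat.add ap11 bn11) (Nat.add an11 bp11)) (Nat.sub (Nat.add an11 bp11) (Nat.add ap11 bn11)) (Nat.sub (Nat.add ap02 bn02) (Nat.add an02 bp02)) (Nat.sub (Nat.add an02 bp02) (Nat.add ap02 bn02)) (Nat.sub (Nat.add ap30 bn30) (Nat.add an30 bp30)) (Nat.sub (Nat.add an30 bp30) (Nat.add ap30 bn30)) (Nat.sub (Nat.add ap21 bn21) (Nat.add an21 bp21)) (Nat.sub (Nat.add an21 bp21) (Nat.add ap21 bn21)) (Nat.sub (Nat.add ap12 bn12) (Nat.add an12 bp12))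 (Nat.sub (Nat.add an12 bp12) (Nat.add ap12 bn12)) (Nat.sub (Nat.add ap03 bn03) (Nat.add an03 bp03)) (Nat.sub (Nat.add an03 bp03) (Nat.add ap03 bn03)) (Nat.sub (Nat.add ap40 bn40) (Nat.add an40 bp40)) (Nat.sub (Nat.add an40 bp40) (Nat.add ap40 bn40)) (Nat.sub (Nat.add ap31 bn31) (Nat.add an31 bp31)) (Nat.sub (Nat.add an31 bp31) (Nat.add ap31 bn31)) (Nat.sub (Nat.add ap22 bn22) (Nat.add an22 bp22)) (Nat.sub (Nat.add an22 bp22) (Nat.add ap22 bn22)) (Nat.sub (Nat.add ap13 bn13) (Nat.add an13 bp13)) (Nat.sub (Nat.add an13 bp13) (Nat.add ap13 bn13)) (Nat.sub (Nat.add ap04 bn04) (Nat.add an04 bp04)) (Nat.sub (Nat.add an04 bp04) (Nat.add ap04 bn04)) (Nat.add ae be)) b) a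

lemma ev_add (a b : TM) (x y : ℝ) : ev (add a b) x y = ev a x y + ev b x y := by
  cases a; cases b
  simp only [add, ev, nat_sub_val, nadd]
  push_cast
  ring

lemma ev_sub (a b : TM) (x y : ℝ) : ev (sub a b) x y = ev a x y - ev b x y := by
  cases a; cases b
  simp only [sub, ev, nat_sub_val, nadd]
  push_cast
  ring

lemma add_e (a b : TM) : (add a b).e = a.e + b.e := by cases a; cases b; rfl
lemma sub_e (a b : TM) : (sub a b).e = a.e + b.e := by cases a; cases b; rfl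

theorem Enc.add {f g : ℝ → ℝ → ℝ} {a b : TM} (hf : Enc f a) (hg : Enc g b) :
    Enc (fun x y => f x y + g x y) (Tm.add a b) := by
  intro x y hx hy
  have h1 := hf x y hx hy
  have h2 := hg x y hx hy
  rw [ev_add, add_e]
  push_cast
  rw [abs_le] at h1 h2 ⊢
  constructor <;> linarith [h1.1, h1.2, h2.1, h2.2]

theorem Enc.sub {f g : ℝ → ℝ → ℝ} {a b : TM} (hf : Enc f a) (hg : Enc g b) :
    Enc (fun x y => f x y - g x y) (Tm.sub a b) := by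
  intro x y hx hy
  have h1 := hf x y hx hy
  have h2 := hg x y hx hy
  rw [ev_sub, sub_e]
  push_cast
  rw [abs_le] at h1 h2 ⊢
  constructor <;> linarith [h1.1, h1.2, h2.1, h2.2]

theorem Enc.congr {f g : ℝ → ℝ → ℝ} {a : TM} (hf : Enc f a) (h : ∀ x y, f x y = g x y) : Enc g a := by
  intro x y hx hy
  rw [← h]
  exact hf x y hx hy

/-- A constant `p - n`. -/
def K (p n e : ℕ) : TM := TM.mk p n 0 0 0 0 0 0 0 0 0 0 0 0 0 0 0 0 0 0 0 0 0 0 0 0 0 0 0 0 e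

lemma ev_K (p n e : ℕ) (x y : ℝ) : ev (K p n e) x y = (p : ℝ) - n := by
  simp [ev, K]

theorem Enc.const {v : ℝ} {p n e : ℕ} (h : |(S : ℝ) * v - ((p : ℝ) - n)| ≤ e) :
    Enc (fun _ _ => v) (K p n e) := by
  intro x y _ _
  rw [ev_K]
  exact h

/-- Product with an enclosed constant. -/
noncomputable def mulC (t : TM) (kp kn ek : ℕ) : TM :=
  rdT (TM.rec (motive := fun _ => TM) (fun ap00 an00 ap10 an10 ap01 an01 ap20 an20 ap11 an11 ap02 an02 ap30 an30 ap21 an21 ap12 an12 ap03 an03 ap40 an40 ap31 an31 ap22 an22 ap13 an13 ap04 an04 _ =>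
    TM.mk (Nat.add (Nat.mul ap00 kp) (Nat.mul an00 kn)) (Nat.add (Nat.mul ap00 kn) (Nat.mul an00 kp)) (Nat.add (Nat.mul ap10 kp) (Nat.mul an10 kn)) (Nat.add (Nat.mul ap10 kn) (Nat.mul an10 kp)) (Nat.add (Nat.mul ap01 kp) (Nat.mul an01 kn)) (Nat.add (Nat.mul ap01 kn) (Nat.mul an01 kp)) (Nat.add (Nat.mul ap20 kp) (Nat.mul an20 kn)) (Nat.add (Nat.mul ap20 kn) (Nat.mul an20 kp)) (Nat.add (Nat.mul ap11 kp) (Nat.mul an11 kn)) (Nat.add (Nat.mul ap11 kn) (Nat.mul an11 kp)) (Nat.add (Nat.mul ap02 kp) (Nat.mul an02 kn)) (Nat.add (Nat.mul ap02 kn) (Nat.mul an02 kp)) (Nat.add (Nat.mul ap30 kp) (Nat.mul an30 kn)) (Nat.add (Nat.mul ap30 kn) (Nat.mul an30 kp)) (Nat.add (Nat.mul ap21 kp) (Nat.mul an21 kn)) (Nat.add (Nat.mul ap21 kn) (Nat.mul an21 kp)) (Nat.add (Nat.mul ap12 kp) (Nat.mul an12 kn)) (Nat.add (Nat.mul ap12 kn) (Nat.mul an12 kp)) (Nat.add (Nat.mul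 ap03 kp) (Nat.mul an03 kn)) (Nat.add (Nat.mul ap03 kn) (Nat.mul an03 kp)) (Nat.add (Nat.mul ap40 kp) (Nat.mul an40 kn)) (Nat.add (Nat.mul ap40 kn) (Nat.mul an40 kp)) (Nat.add (Nat.mul ap31 kp) (Nat.mul an31 kn)) (Nat.add (Nat.mul ap31 kn) (Nat.mul an31 kp)) (Nat.add (Nat.mul ap22 kp) (Nat.mul an22 kn)) (Nat.add (Nat.mul ap22 kn) (Nat.mul an22 kp)) (Nat.add (Nat.mul ap13 kp) (Nat.mul an13 kn)) (Nat.add (Nat.mul ap13 kn) (Nat.mul an13 kp)) (Nat.add (Nat.mul ap04 kp) (Nat.mul an04 kn)) (Nat.add (Nat.mul ap04 kn) (Nat.mul an04 kp)) 0) t)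
  (Nat.add (Nat.div (Nat.add (Nat.add (Nat.mul (nrm t) ek) (Nat.mul (Nat.add kp kn) t.e)) (Nat.mul t.e ek)) S) 16)

theorem Enc.mulC {f : ℝ → ℝ → ℝ} {t : TM} {v : ℝ} {kp kn ek : ℕ} (hf : Enc f t)
    (hk : |(S : ℝ) * v - ((kp : ℝ) - kn)| ≤ ek) : Enc (fun x y => v * f x y) (Tm.mulC t kp kn ek) := by
  intro x y hx hy
  have h1 := hf x y hx hy
  have h3 := ev_le t hx hy
  set R : TM := (TM.rec (motive := fun _ => TM) (fun ap00 an00 ap10 an10 ap01 an01 ap20 an20 ap11 an11 ap02 an02 ap30 an30 ap21 an21 ap12 an12 ap03 an03 ap40 an40 ap31 an31 ap22 an22 ap13 an13 ap04 an04 _ =>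
    TM.mk (Nat.add (Nat.mul ap00 kp) (Nat.mul an00 kn)) (Nat.add (Nat.mul ap00 kn) (Nat.mul an00 kp)) (Nat.add (Nat.mul ap10 kp) (Nat.mul an10 kn)) (Nat.add (Nat.mul ap10 kn) (Nat.mul an10 kp)) (Nat.add (Nat.mul ap01 kp) (Nat.mul an01 kn)) (Nat.add (Nat.mul ap01 kn) (Nat.mul an01 kp)) (Nat.add (Nat.mul ap20 kp) (Nat.mul an20 kn)) (Nat.add (Nat.mul ap20 kn) (Nat.mul an20 kp)) (Nat.add (Nat.mul ap11 kp) (Nat.mul an11 kn)) (Nat.add (Nat.mul ap11 kn) (Nat.mul an11 kp)) (Nat.add (Nat.mul ap02 kp) (Nat.mul an02 kn)) (Nat.add (Nat.mul ap02 kn) (Nat.mul an02 kp)) (Nat.add (Nat.mul ap30 kp) (Nat.mul an30 kn)) (Nat.add (Nat.mul ap30 kn) (Nat.mul an30 kp)) (Nat.add (Nat.mul ap21 kp) (Nat.mul an21 kn)) (Nat.add (Nat.mul ap21 kn) (Nat.mul an21 kp)) (Nat.add (Nat.mul ap12 kp) (Nat.mul an12 kn)) (Nat.add (Nat.mul ap12 kn) (Nat.mul an12 kp)) (Nat.add (Nat.mul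 ap03 kp) (Nat.mul an03 kn)) (Nat.add (Nat.mul ap03 kn) (Nat.mul an03 kp)) (Nat.add (Nat.mul ap40 kp) (Nat.mul an40 kn)) (Nat.add (Nat.mul ap40 kn) (Nat.mul an40 kp)) (Nat.add (Nat.mul ap31 kp) (Nat.mul an31 kn)) (Nat.add (Nat.mul ap31 kn) (Nat.mul an31 kp)) (Nat.add (Nat.mul ap22 kp) (Nat.mul an22 kn)) (Nat.add (Nat.mul ap22 kn) (Nat.mul an22 kp)) (Nat.add (Nat.mul ap13 kp) (Nat.mul an13 kn)) (Nat.add (Nat.mul ap13 kn) (Nat.mul an13 kp)) (Nat.add (Nat.mul ap04 kp) (Nat.mul an04 kn)) (Nat.add (Nat.mul ap04 kn) (Nat.mul an04 kp)) 0) t) with hR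
  have h5 : ev R x y = ev t x y * ((kp : ℝ) - kn) := by
    rw [hR]
    cases t
    simp only [ev, nadd, nmul]
    push_cast
    ring
  set E : ℕ := Nat.add (Nat.add (Nat.mul (nrm t) ek) (Nat.mul (Nat.add kp kn) t.e)) (Nat.mul t.e ek) with hE
  have h7 := rdT_spec R (Nat.add (Nat.div E S) 16) hx hy
  have e1 : (Tm.mulC t kp kn ek).e = Nat.add (Nat.div E S) 16 := by
    show (rdT R (Nat.add (Nat.div E S) 16)).e = _
    cases R; rfl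
  rw [e1]
  change |(S : ℝ) * (v * f x y) - ev (rdT R (Nat.add (Nat.div E S) 16)) x y| ≤ _
  set T := ev (rdT R (Nat.add (Nat.div E S) 16)) x y with hT
  set P := ev t x y
  set F := (S : ℝ) * f x y with hF
  set V := (S : ℝ) * v with hV
  have hEr : (E : ℝ) = (nrm t : ℝ) * ek + ((kp : ℝ) + kn) * t.e + (t.e : ℝ) * ek := by
    simp only [hE, nadd, nmul]; push_cast; ring
  have key : ∀ (p q A B : ℝ), |p| ≤ A → |q| ≤ B → |p * q| ≤ A * B := fun p q A B h1 h2 => by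
    rw [abs_mul]; exact mul_le_mul h1 h2 (abs_nonneg _) ((abs_nonneg _).trans h1)
  have t1 := key _ _ _ _ h1 hk
  have t2 := key _ _ _ _ h1 (cv_abs kp kn)
  have t3 := key _ _ _ _ h3 hk
  have main : (S : ℝ) * ((S : ℝ) * (v * f x y) - T)
      = (F - P) * (V - ((kp : ℝ) - kn)) + (F - P) * ((kp : ℝ) - kn) + P * (V - ((kp : ℝ) - kn))
        + (ev R x y - S * T) := by
    rw [hF, hV, h5]; ring
  have h8 : |(S : ℝ) * ((S : ℝ) * (v * f x y) - T)| ≤ (E : ℝ) + 15 * S := by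
    rw [main, hEr]
    rw [abs_le] at t1 t2 t3 h7 ⊢
    constructor <;> nlinarith [t1.1, t1.2, t2.1, t2.2, t3.1, t3.2, h7.1, h7.2]
  rw [abs_mul, abs_of_pos S_pos] at h8
  have h9 : |(S : ℝ) * (v * f x y) - T| ≤ (E : ℝ) / S + 15 := by
    rw [div_add' _ _ _ S_pos.ne', le_div_iff₀ S_pos]
    linarith
  have h10 := div_bound E
  have e2 : ((Nat.add (Nat.div E S) 16 : ℕ) : ℝ) = ((E / S : ℕ) : ℝ) + 16 := by
    have : Nat.add (Nat.div E S) 16 = E / S + 16 := rfl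
    rw [this]
    push_cast
    ring
  rw [e2]
  linarith

/-- Enlarge the error. -/
noncomputable def addE (t : TM) (d : ℕ) : TM :=
  TM.rec (motive := fun _ => TM) (fun ap00 an00 ap10 an10 ap01 an01 ap20 an20 ap11 an11 ap02 an02 ap30 an30 ap21 an21 ap12 an12 ap03 an03 ap40 an40 ap31 an31 ap22 an22 ap13 an13 ap04 an04 ae =>
    TM.mk ap00 an00 ap10 an10 ap01 an01 ap20 an20 ap11 an11 ap02 an02 ap30 an30 ap21 an21 ap12 an12 ap03 an03 ap40 an40 ap31 an31 ap22 an22 ap13 an13 ap04 an04 (Nat.add ae d)) t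

lemma ev_addE (t : TM) (d : ℕ) (x y : ℝ) : ev (addE t d) x y = ev t x y := by
  cases t; rfl

lemma addE_e (t : TM) (d : ℕ) : (addE t d).e = t.e + d := by cases t; rfl

/-- Adding `kp - kn` times a Taylor model, without rounding. -/
noncomputable def addMul (a : TM) (kp kn : ℕ) (b : TM) : TM :=
  TM.rec (motive := fun _ => TM) (fun ap00 an00 ap10 an10 ap01 an01 ap20 an20 ap11 an11 ap02 an02 ap30 an30 ap21 an21 ap12 an12 ap03 an03 ap40 an40 ap31 an31 ap22 an22 ap13 an13 ap04 an04 ae =>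
  TM.rec (motive := fun _ => TM) (fun bp00 bn00 bp10 bn10 bp01 bn01 bp20 bn20 bp11 bn11 bp02 bn02 bp30 bn30 bp21 bn21 bp12 bn12 bp03 bn03 bp40 bn40 bp31 bn31 bp22 bn22 bp13 bn13 bp04 bn04 be =>
    TM.mk (Nat.add ap00 (Nat.add (Nat.mul kp bp00) (Nat.mul kn bn00))) (Nat.add an00 (Nat.add (Nat.mul kp bn00) (Nat.mul kn bp00))) (Nat.add ap10 (Nat.add (Nat.mul kp bp10) (Nat.mul kn bn10))) (Nat.add an10 (Nat.add (Nat.mul kp bn10) (Nat.mul kn bp10))) (Nat.add ap01 (Nat.add (Nat.mul kp bp01) (Nat.mul kn bn01))) (Nat.add an01 (Nat.add (Nat.mul kp bn01) (Nat.mul kn bp01))) (Nat.add ap20 (Nat.add (Nat.mul kp bp20) (Nat.mul kn bn20))) (Nat.add an20 (Nat.add (Nat.mul kp bn20) (Nat.mul kn bp20))) (Nat.add ap11 (Nat.add (Nat.mul kp bp11) (Nat.mul kn bn11))) (Nat.add an11 (Nat.add (Nat.mul kp bn11) (Nat.mul kn bp11))) (Nat.add ap02 (Nat.add (Nat.mul kp bp02) (Nat.mul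 kn bn02))) (Nat.add an02 (Nat.add (Nat.mul kp bn02) (Nat.mul kn bp02))) (Nat.add ap30 (Nat.add (Nat.mul kp bp30) (Nat.mul kn bn30))) (Nat.add an30 (Nat.add (Nat.mul kp bn30) (Nat.mul kn bp30))) (Nat.add ap21 (Nat.add (Nat.mul kp bp21) (Nat.mul kn bn21))) (Nat.add an21 (Nat.add (Nat.mul kp bn21) (Nat.mul kn bp21))) (Nat.add ap12 (Nat.add (Nat.mul kp bp12) (Nat.mul kn bn12))) (Nat.add an12 (Nat.add (Nat.mul kp bn12) (Nat.mul kn bp12))) (Nat.add ap03 (Nat.add (Nat.mul kp bp03) (Nat.mul kn bn03))) (Nat.add an03 (Nat.add (Nat.mul kp bn03) (Nat.mul kn bp03))) (Nat.add ap40 (Nat.add (Nat.mul kp bp40) (Nat.mul kn bn40))) (Nat.add an40 (Nat.add (Nat.mul kp bn40) (Nat.mul kn bp40))) (Nat.add ap31 (Nat.add (Nat.mul kp bp31) (Nat.mul kn bn31))) (Nat.add an31 (Nat.add (Nat.mul kp bn31) (Nat.mul kn bp31))) (Nat.add ap22 (Nat.add (Nat.mul kp bp22) (Nat.mul kn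 bn22))) (Nat.add an22 (Nat.add (Nat.mul kp bn22) (Nat.mul kn bp22))) (Nat.add ap13 (Nat.add (Nat.mul kp bp13) (Nat.mul kn bn13))) (Nat.add an13 (Nat.add (Nat.mul kp bn13) (Nat.mul kn bp13))) (Nat.add ap04 (Nat.add (Nat.mul kp bp04) (Nat.mul kn bn04))) (Nat.add an04 (Nat.add (Nat.mul kp bn04) (Nat.mul kn bp04))) (Nat.add ae (Nat.mul (Nat.add kp kn) be))) b) a

theorem Enc.addMul {f g : ℝ → ℝ → ℝ} {a b : TM} (kp kn : ℕ) (hf : Enc f a) (hg : Enc g b) :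
    Enc (fun x y => f x y + ((kp : ℝ) - kn) * g x y) (Tm.addMul a kp kn b) := by
  intro x y hx hy
  have h1 := hf x y hx hy
  have h2 := hg x y hx hy
  have e1 : ev (Tm.addMul a kp kn b) x y = ev a x y + ((kp : ℝ) - kn) * ev b x y := by
    cases a; cases b
    simp only [Tm.addMul, ev, nadd, nmul]
    push_cast
    ring
  have e2 : ((Tm.addMul a kp kn b).e : ℝ) = a.e + ((kp : ℝ) + kn) * b.e := by
    have : (Tm.addMul a kp kn b).e = Nat.add a.e (Nat.mul (Nat.add kp kn) b.e) := by cases a; cases b; rfl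
    rw [this]
    simp only [nadd, nmul]
    push_cast
    ring
  rw [e1, e2]
  have h3 : |((kp : ℝ) - kn) * ((S : ℝ) * g x y - ev b x y)| ≤ ((kp : ℝ) + kn) * b.e := by
    rw [abs_mul]; exact mul_le_mul (cv_abs kp kn) h2 (abs_nonneg _) ((abs_nonneg _).trans (cv_abs kp kn))
  have e3 : (S : ℝ) * (f x y + ((kp : ℝ) - kn) * g x y) - (ev a x y + ((kp : ℝ) - kn) * ev b x y)
      = ((S : ℝ) * f x y - ev a x y) + ((kp : ℝ) - kn) * ((S : ℝ) * g x y - ev b x y) := by ring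
  rw [e3]
  rw [abs_le] at h1 h3 ⊢
  constructor <;> linarith [h1.1, h1.2, h3.1, h3.2]

/-- Normalise the coefficients. -/
noncomputable def nz (t : TM) : TM :=
  TM.rec (motive := fun _ => TM) (fun ap00 an00 ap10 an10 ap01 an01 ap20 an20 ap11 an11 ap02 an02 ap30 an30 ap21 an21 ap12 an12 ap03 an03 ap40 an40 ap31 an31 ap22 an22 ap13 an13 ap04 an04 ae =>
    TM.mk (Nat.sub ap00 an00) (Nat.sub an00 ap00) (Nat.sub ap10 an10) (Nat.sub an10 ap10) (Nat.sub ap01 an01) (Nat.sub an01 ap01) (Nat.sub ap20 an20) (Nat.sub an20 ap20) (Nat.sub ap11 an11) (Nat.sub an11 ap11) (Nat.sub ap02 an02) (Nat.sub an02 ap02) (Nat.sub ap30 an30) (Nat.sub an30 ap30) (Nat.sub ap21 an21) (Nat.sub an21 ap21) (Nat.sub ap12 an12) (Nat.sub an12 ap12) (Nat.sub ap03 an03) (Nat.sub an03 ap03) (Nat.sub ap40 an40) (Nat.sub an40 ap40) (Nat.sub ap31 an31) (Nat.sub an31 ap31) (Nat.sub ap22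 an22) (Nat.sub an22 ap22) (Nat.sub ap13 an13) (Nat.sub an13 ap13) (Nat.sub ap04 an04) (Nat.sub an04 ap04) ae) t

lemma ev_nz (t : TM) (x y : ℝ) : ev (nz t) x y = ev t x y := by
  cases t
  simp only [nz, ev, nat_sub_val]

lemma nz_e (t : TM) : (nz t).e = t.e := by cases t; rfl

theorem Enc.nz {f : ℝ → ℝ → ℝ} {t : TM} (hf : Enc f t) : Enc f (Tm.nz t) := by
  intro x y hx hy
  rw [ev_nz, nz_e]
  exact hf x y hx hy

/-- What has to be subtracted from the constant term for a lower bound on the square. -/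
noncomputable def lbN (t : TM) : ℕ :=
  TM.rec (motive := fun _ => ℕ) (fun ap00 an00 ap10 an10 ap01 an01 ap20 an20 ap11 an11 ap02 an02 ap30 an30 ap21 an21 ap12 an12 ap03 an03 ap40 an40 ap31 an31 ap22 an22 ap13 an13 ap04 an04 ae =>
    (Nat.add (Nat.add (Nat.add (Nat.add (Nat.add (Nat.add (Nat.add (Nat.add (Nat.add (Nat.add (Nat.add (Nat.add (Nat.add (Nat.add (Nat.add ae an00) (Nat.add ap10 an10)) (Nat.add ap01 an01)) an20) (Nat.add ap11 an11)) an02) (Nat.add ap30 an30)) (Nat.add ap21 an21)) (Nat.add ap12 an12)) (Nat.add ap03 an03)) an40) (Nat.add ap31 an31)) an22) (Nat.add ap13 an13)) an04)) t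

/-- Nonnegativity test. -/
noncomputable def nonnegT (t : TM) : Bool := Nat.ble (lbN t) t.p00

lemma even_term (p n i j : ℕ) {x y : ℝ} (hx : |x| ≤ 1) (hy : |y| ≤ 1) :
    -(n : ℝ) ≤ ((p : ℝ) - n) * (x ^ (2 * i) * y ^ (2 * j)) := by
  have h1 : 0 ≤ x ^ (2 * i) * y ^ (2 * j) := by
    rw [pow_mul, pow_mul]; positivity
  have h2 := abs_le.1 (mono_le (2 * i) (2 * j) hx hy)
  have h3 : (0 : ℝ) ≤ p := Nat.cast_nonneg _
  have h4 : (0 : ℝ) ≤ n := Nat.cast_nonneg _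
  have h6 : x ^ (2 * i) * y ^ (2 * j) ≤ 1 := h2.2
  have h7 := mul_nonneg h3 h1
  nlinarith

theorem nonnegT_spec {f : ℝ → ℝ → ℝ} {t : TM} (hf : Enc f t) (h : nonnegT t = true) {x y : ℝ}
    (hx : |x| ≤ 1) (hy : |y| ≤ 1) : 0 ≤ f x y := by
  have h1 := hf x y hx hy
  have a0 := (abs_le.1 (term_abs t.p10 t.n10 1 0 hx hy)).1
  have a1 := (abs_le.1 (term_abs t.p01 t.n01 0 1 hx hy)).1
  have a2 : -((t.n20 : ℕ) : ℝ) ≤ ((t.p20 : ℝ) - t.n20) * (x ^ 2 * y ^ 0) := even_term t.p20 t.n20 1 0 hx hy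
  have a3 := (abs_le.1 (term_abs t.p11 t.n11 1 1 hx hy)).1
  have a4 : -((t.n02 : ℕ) : ℝ) ≤ ((t.p02 : ℝ) - t.n02) * (x ^ 0 * y ^ 2) := even_term t.p02 t.n02 0 1 hx hy
  have a5 := (abs_le.1 (term_abs t.p30 t.n30 3 0 hx hy)).1
  have a6 := (abs_le.1 (term_abs t.p21 t.n21 2 1 hx hy)).1
  have a7 := (abs_le.1 (term_abs t.p12 t.n12 1 2 hx hy)).1
  have a8 := (abs_le.1 (term_abs t.p03 t.n03 0 3 hx hy)).1
  have a9 : -((t.n40 : ℕ) : ℝ) ≤ ((t.p40 : ℝ) - t.n40) * (x ^ 4 * y ^ 0) := even_term t.p40 t.n40 2 0 hx hy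
  have a10 := (abs_le.1 (term_abs t.p31 t.n31 3 1 hx hy)).1
  have a11 : -((t.n22 : ℕ) : ℝ) ≤ ((t.p22 : ℝ) - t.n22) * (x ^ 2 * y ^ 2) := even_term t.p22 t.n22 1 1 hx hy
  have a12 := (abs_le.1 (term_abs t.p13 t.n13 1 3 hx hy)).1
  have a13 : -((t.n04 : ℕ) : ℝ) ≤ ((t.p04 : ℝ) - t.n04) * (x ^ 0 * y ^ 4) := even_term t.p04 t.n04 0 2 hx hy
  have e0 : ((lbN t : ℕ) : ℝ) = (t.e : ℝ) + t.n00 + ((t.p10 : ℝ) + t.n10) + ((t.p01 : ℝ) + t.n01) + (t.n20 : ℝ) + ((t.p11 : ℝ) + t.n11) + (t.n02 : ℝ) + ((t.p30 : ℝ) + t.n30) + ((t.p21 : ℝ) + t.n21) + ((t.p12 : ℝ) + t.n12) + ((t.p03 : ℝ) + t.n03) + (t.n40 : ℝ) + ((t.p31 : ℝ) + t.n31) + (t.n22 : ℝ) + ((t.p13 : ℝ) + t.n13) + (t.n04 : ℝ) := by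
    cases t
    simp only [lbN, nadd]
    push_cast
    ring
  have h2 : (lbN t : ℝ) ≤ (t.p00 : ℝ) := by
    exact_mod_cast Nat.le_of_ble_eq_true h
  have e1 : ev t x y = ((t.p00 : ℝ) - t.n00) + ((t.p10 : ℝ) - t.n10) * (x ^ 1 * y ^ 0) + ((t.p01 : ℝ) - t.n01) * (x ^ 0 * y ^ 1) + ((t.p20 : ℝ) - t.n20) * (x ^ 2 * y ^ 0) + ((t.p11 : ℝ) - t.n11) * (x ^ 1 * y ^ 1) + ((t.p02 : ℝ) - t.n02) * (x ^ 0 * y ^ 2) + ((t.p30 : ℝ) - t.n30) * (x ^ 3 * y ^ 0) + ((t.p21 : ℝ) - t.n21) * (x ^ 2 * y ^ 1) + ((t.p12 : ℝ) - t.n12) * (x ^ 1 * y ^ 2) + ((t.p03 : ℝ) - t.n03) * (x ^ 0 * y ^ 3) + ((t.p40 : ℝ) - t.n40) * (x ^ 4 * y ^ 0) + ((t.p31 : ℝ) - t.n31) * (x ^ 3 * y ^ 1) + ((t.p22 : ℝ) - t.n22) * (x ^ 2 * y ^ 2) + ((t.p13 : ℝ) - t.n13) * (x ^ 1 * y ^ 3) + ((t.p04 : ℝ) - t.n04) * (x ^ 0 * y ^ 4) := by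
    unfold ev; ring
  have h5 := abs_le.1 h1
  have h6 : 0 ≤ (S : ℝ) * f x y := by
    rw [e1] at h5
    rw [e0] at h2
    linarith [a0, a1, a2, a3, a4, a5, a6, a7, a8, a9, a10, a11, a12, a13, h5.1]
  exact nonneg_of_mul_nonneg_right h6 S_pos

end Vale.Agent.P154H.Tm
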